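import Mathlib

set_option autoImplicit false

namespace Crest.Agent.H0183

open scoped InnerProductSpace BigOperators
open MonoidAlgebra

/-- The real group algebra. -/
abbrev RG (G : Type*) := MonoidAlgebra ℝ G

section lc
variable {G : Type*} {H : Type*} [NormedAddCommGroup H] [InnerProductSpace ℂ H]

/-- Linear combination of a family of vectors with the coefficients of a group algebra element. -/
noncomputable def lc (v : G → H) : RG G →ₗ[ℝ] H :=
  Finsupp.linearCombination ℝ v ∘ₗ (coeffLinearEquiv ℝ).toLinearMap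

@[simp] lemma lc_single (v : G → H) (g : G) (r : ℝ) : lc v (single g r) = r • v g := by
  simp [lc]

lemma lc_single' (v : G → H) (g : G) (r : ℝ) : lc v (single g r) = (r : ℂ) • v g := by
  rw [lc_single, Complex.coe_smul]

lemma lin_ext {E : Type*} [AddCommGroup E] [Module ℝ E] {f₁ f₂ : RG G →ₗ[ℝ] E}
    (h : ∀ g, f₁ (single g 1) = f₂ (single g 1)) (F : RG G) : f₁ F = f₂ F := by
  induction F using MonoidAlgebra.induction_linear with
  | zero => simp
  | add x y hx hy => simp [hx, hy]
  | single g r =>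
    have : (single g r : RG G) = r • single g 1 := by simp
    rw [this, map_smul, map_smul, h]

lemma inner_lc_eq {H' : Type*} [NormedAddCommGroup H'] [InnerProductSpace ℂ H']
    {v : G → H} {w : G → H'} (hv : Orthonormal ℂ v) (hw : Orthonormal ℂ w) (F F' : RG G) :
    ⟪lc v F, lc v F'⟫_ℂ = ⟪lc w F, lc w F'⟫_ℂ := by
  classical
  induction F using MonoidAlgebra.induction_linear with
  | zero => simp
  | add x y hx hy => simp only [map_add, inner_add_left, hx, hy]
  | single g r =>
    induction F' using MonoidAlgebra.induction_linear with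
    | zero => simp
    | add x y hx hy => simp only [map_add, inner_add_right, hx, hy]
    | single g' r' =>
      simp only [lc_single, ← Complex.coe_smul, inner_smul_left, inner_smul_right,
        orthonormal_iff_ite.1 hv, orthonormal_iff_ite.1 hw]

lemma norm_lc_eq {H' : Type*} [NormedAddCommGroup H'] [InnerProductSpace ℂ H']
    {v : G → H} {w : G → H'} (hv : Orthonormal ℂ v) (hw : Orthonormal ℂ w) (F : RG G) :
    ‖lc v F‖ = ‖lc w F‖ := by
  rw [@norm_eq_sqrt_re_inner ℂ, @norm_eq_sqrt_re_inner ℂ, inner_lc_eq hv hw]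

/-- The standard basis of `ℓ²(G)`. -/
noncomputable def dl (g : G) : lp (fun _ : G => ℂ) 2 := by
  classical exact lp.single 2 g 1

lemma dl_apply [DecidableEq G] (g h : G) : dl g h = if h = g then 1 else 0 := by
  unfold dl
  by_cases hh : h = g
  · subst hh; simp
  · simp [hh]

lemma dl_eq [DecidableEq G] (g : G) : dl g = lp.single 2 g 1 := by
  unfold dl
  congr
  exact Subsingleton.elim _ _

lemma orthonormal_dl : Orthonormal ℂ (dl : G → lp (fun _ : G => ℂ) 2) := by
  classical
  rw [orthonormal_iff_ite]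
  intro g h
  unfold dl
  rw [lp.inner_single_left]
  by_cases hh : g = h
  · subst hh; simp
  · simp [hh]

/-- The `ℓ²` norm on the group algebra. -/
noncomputable def nn (F : RG G) : ℝ := ‖lc dl F‖

lemma norm_lc {v : G → H} (hv : Orthonormal ℂ v) (F : RG G) : ‖lc v F‖ = nn F :=
  norm_lc_eq hv orthonormal_dl F

lemma nn_nonneg (F : RG G) : 0 ≤ nn F := norm_nonneg _

lemma nn_add_le (F F' : RG G) : nn (F + F') ≤ nn F + nn F' := by
  unfold nn; rw [map_add]; exact norm_add_le _ _

lemma nn_smul (r : ℝ) (F : RG G) : nn (r • F) = |r| * nn F := by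
  unfold nn; rw [map_smul, norm_smul, Real.norm_eq_abs]

lemma nn_neg (F : RG G) : nn (-F) = nn F := by
  unfold nn; rw [map_neg, norm_neg]

lemma nn_zero : nn (0 : RG G) = 0 := by
  unfold nn; rw [map_zero, norm_zero]

lemma lc_dl_apply (F : RG G) (g : G) : lc dl F g = F.coeff g := by
  classical
  induction F using MonoidAlgebra.induction_linear with
  | zero => simp
  | add x y hx hy => simp [hx, hy]
  | single h r =>
    rw [lc_single', coeff_single, Finsupp.single_apply, lp.coeFn_smul, Pi.smul_apply, dl_apply]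
    by_cases hh : g = h
    · subst hh; simp
    · simp [hh, Ne.symm hh]

lemma nn_sum_sq {ι : Type*} (s : Finset ι) (f : ι → RG G) (S : ι → Set G)
    (hf : ∀ i ∈ s, f i ∈ supported ℝ ℝ (S i))
    (hS : ∀ i ∈ s, ∀ j ∈ s, i ≠ j → ∀ g, g ∈ S i → g ∈ S j → False) :
    nn (∑ i ∈ s, f i) ^ 2 = ∑ i ∈ s, nn (f i) ^ 2 := by
  have h0 : ∀ i ∈ s, ∀ j ∈ s, i ≠ j → ⟪lc dl (f i), lc dl (f j)⟫_ℂ = 0 := by
    intro i hi j hj hij
    rw [lp.inner_eq_tsum]
    refine (tsum_congr fun g => ?_).trans tsum_zero
    rw [lc_dl_apply, lc_dl_apply]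
    by_cases hg : g ∈ S i
    · rw [mem_supported'.1 (hf j hj) g (hS i hi j hj hij g hg)]; simp
    · rw [mem_supported'.1 (hf i hi) g hg]; simp
  unfold nn
  simp only [← @inner_self_eq_norm_sq ℂ]
  rw [map_sum, sum_inner, map_sum]
  refine Finset.sum_congr rfl fun i hi => ?_
  rw [inner_sum, Finset.sum_eq_single i (fun j hj hji => h0 i hi j hj (Ne.symm hji))
    (fun h => absurd hi h)]

variable [Group G]

lemma nn_one : nn (1 : RG G) = 1 := by
  unfold nn
  rw [one_def, lc_single', Complex.ofReal_one, one_smul]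
  exact orthonormal_dl.1 1

lemma nn_single_mul (u : G) (F : RG G) : nn (single u 1 * F) = nn F := by
  have h := lin_ext (f₁ := lc dl ∘ₗ LinearMap.mulLeft ℝ (single u (1 : ℝ)))
    (f₂ := lc (fun g => dl (u * g))) (fun g => by simp [single_mul_single]) F
  rw [← norm_lc (orthonormal_dl.comp (fun g => u * g) (mul_right_injective u)) F]
  exact congrArg norm h

lemma single_mul_mem {s t : Set G} {u : G} {F : RG G} (hF : F ∈ supported ℝ ℝ s)
    (h : ∀ x ∈ s, u * x ∈ t) : single u 1 * F ∈ supported ℝ ℝ t := by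
  rw [mem_supported'] at hF ⊢
  intro g hg
  rw [coeff_single_mul_apply, hF _ (fun hh => hg (by simpa using h _ hh)), mul_zero]

lemma mul_single_mem {s t : Set G} {u : G} {F : RG G} (hF : F ∈ supported ℝ ℝ s)
    (h : ∀ x ∈ s, x * u ∈ t) : F * single u 1 ∈ supported ℝ ℝ t := by
  rw [mem_supported'] at hF ⊢
  intro g hg
  rw [coeff_mul_single_apply, hF _ (fun hh => hg (by simpa using h _ hh)), zero_mul]

end lc

end Crest.Agent.H0183
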