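import Mathlib
import Crest.Agent.H0183.Basic

set_option autoImplicit false

namespace Crest.Agent.H0183

open scoped BigOperators Nat
open MonoidAlgebra

section anti
variable {G : Type*} [Group G]

/-- The antipode (the star operation of the real group algebra). -/
noncomputable def anti : RG G →ₗ[ℝ] RG G := mapDomainLinearMap ℝ ℝ (fun g : G => g⁻¹)

@[simp] lemma anti_single (g : G) (r : ℝ) : anti (single g r) = single g⁻¹ r := by simp [anti]

lemma anti_anti (F : RG G) : anti (anti F) = F :=
  lin_ext (f₁ := anti ∘ₗ anti) (f₂ := LinearMap.id) (fun g => by simp) F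

lemma anti_mul (F F' : RG G) : anti (F * F') = anti F' * anti F := by
  induction F using MonoidAlgebra.induction_linear with
  | zero => simp
  | add x y hx hy => simp only [add_mul, map_add, mul_add, hx, hy]
  | single g r =>
    induction F' using MonoidAlgebra.induction_linear with
    | zero => simp
    | add x y hx hy => simp only [add_mul, map_add, mul_add, hx, hy]
    | single g' r' => simp [single_mul_single, mul_comm]

lemma coeff_one_mul_comm (F F' : RG G) : (F * F').coeff 1 = (F' * F).coeff 1 := by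
  induction F using MonoidAlgebra.induction_linear with
  | zero => simp
  | add x y hx hy => simp only [add_mul, mul_add, coeff_add, Finsupp.add_apply, hx, hy]
  | single g r => simp [mul_comm]

/-- A trace preserving star derivation of the real group algebra. -/
structure Der (G : Type*) [Group G] where
  /-- the underlying linear map -/
  D : Module.End ℝ (RG G)
  mul : ∀ F F', D (F * F') = F * D F' + D F * F'
  ant : ∀ F, D (anti F) = anti (D F)
  tr : ∀ F, (D F).coeff 1 = 0

/-- A unit of the dual numbers. -/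
noncomputable def dunit (g : G) (m : RG G) : (DualNumber (RG G))ˣ where
  val := ⟨single g 1, m⟩
  inv := ⟨single g⁻¹ 1, -(single g⁻¹ 1 * m * single g⁻¹ 1)⟩
  val_inv := by
    ext1
    · simp [single_mul_single, one_def]
    · simp [← mul_assoc, single_mul_single, ← one_def]
  inv_val := by
    ext1
    · simp [single_mul_single, one_def]
    · simp [mul_assoc, single_mul_single, ← one_def]

end anti

section free
variable {ι : Type*}

/-- Lift to the dual numbers. -/
noncomputable def dhom (e : ι → RG (FreeGroup ι)) : FreeGroup ι →* (DualNumber (RG (FreeGroup ι)))ˣ :=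
  FreeGroup.lift fun x => dunit (FreeGroup.of x) (e x)

/-- The derivative of a group element. -/
noncomputable def dg (e : ι → RG (FreeGroup ι)) (g : FreeGroup ι) : RG (FreeGroup ι) :=
  (dhom e g).val.snd

variable (e : ι → RG (FreeGroup ι))

lemma dhom_fst (g : FreeGroup ι) : (dhom e g).val.fst = single g 1 := by
  induction g using FreeGroup.induction_on with
  | C1 => simp [one_def]
  | of x => simp [dhom, dunit]
  | inv_of x _ => rw [map_inv]; simp [dhom, dunit]
  | mul x y hx hy => simp [hx, hy, single_mul_single]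

lemma dg_one : dg e 1 = 0 := by simp [dg]

lemma dg_of (x : ι) : dg e (FreeGroup.of x) = e x := by simp [dg, dhom, dunit]

lemma dg_mul (g h : FreeGroup ι) : dg e (g * h) = single g 1 * dg e h + dg e g * single h 1 := by
  simp only [dg, map_mul, Units.val_mul, DualNumber.snd_mul, dhom_fst]

lemma dg_inv (g : FreeGroup ι) : dg e g⁻¹ = -(single g⁻¹ 1 * dg e g * single g⁻¹ 1) := by
  have h := dg_mul e g⁻¹ g
  rw [inv_mul_cancel, dg_one] at h
  have h2 := congrArg (· * single g⁻¹ (1 : ℝ)) h
  simp only [zero_mul, add_mul, mul_assoc, single_mul_single, mul_inv_cancel, mul_one,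
    ← one_def] at h2
  rw [mul_assoc]
  exact eq_neg_of_add_eq_zero_right h2.symm

lemma dg_zpow {g : FreeGroup ι} (hg : dg e g = 0) (k : ℤ) : dg e (g ^ k) = 0 := by
  have h : ∀ n : ℕ, dg e (g ^ n) = 0 := by
    intro n
    induction n with
    | zero => rw [pow_zero, dg_one]
    | succ n ih => rw [pow_succ, dg_mul, hg, ih]; simp
  obtain ⟨n, rfl | rfl⟩ := Int.eq_nat_or_neg k
  · rw [zpow_natCast, h]
  · rw [zpow_neg, zpow_natCast, dg_inv, h]; simp

/-- The derivation of the group algebra with prescribed values on the generators. -/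
noncomputable def der : Module.End ℝ (RG (FreeGroup ι)) :=
  Finsupp.linearCombination ℝ (dg e) ∘ₗ (coeffLinearEquiv ℝ).toLinearMap

@[simp] lemma der_single (g : FreeGroup ι) (r : ℝ) : der e (single g r) = r • dg e g := by
  simp [der]

lemma der_mul (F F' : RG (FreeGroup ι)) : der e (F * F') = F * der e F' + der e F * F' := by
  induction F using MonoidAlgebra.induction_linear with
  | zero => simp
  | add x y hx hy => simp only [add_mul, map_add, hx, hy]; abel
  | single g r =>
    induction F' using MonoidAlgebra.induction_linear with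
    | zero => simp
    | add x y hx hy => simp only [mul_add, map_add, hx, hy]; abel
    | single g' r' =>
      have h1 : (single g r : RG (FreeGroup ι)) = r • single g 1 := by simp
      have h2 : (single g' r' : RG (FreeGroup ι)) = r' • single g' 1 := by simp
      rw [single_mul_single, der_single, der_single, der_single, dg_mul, h1, h2]
      simp only [smul_add, smul_mul_assoc, mul_smul_comm, smul_smul, mul_comm r' r]

variable [DecidableEq ι] (a : ι) (η : RG (FreeGroup ι))

/-- Values on generators: `a ↦ a η`, the other generators are fixed. -/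
noncomputable def gv : ι → RG (FreeGroup ι) :=
  fun x => if x = a then single (FreeGroup.of a) 1 * η else 0

lemma dg_gv_of (x : ι) : dg (gv a η) (FreeGroup.of x) =
    if x = a then single (FreeGroup.of x) 1 * η else 0 := by
  rw [dg_of, gv]
  split_ifs with h
  · rw [h]
  · rfl

lemma dg_gv_inv (x : ι) : dg (gv a η) (FreeGroup.of x)⁻¹ =
    if x = a then -(η * single (FreeGroup.of x)⁻¹ 1) else 0 := by
  rw [dg_inv, dg_gv_of]
  split_ifs with h
  · rw [← mul_assoc, single_mul_single, inv_mul_cancel, mul_one, ← one_def, one_mul]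
  · simp

lemma dg_anti (hη : anti η = -η) (g : FreeGroup ι) :
    dg (gv a η) g⁻¹ = anti (dg (gv a η) g) := by
  have hof : ∀ x, dg (gv a η) (FreeGroup.of x)⁻¹ = anti (dg (gv a η) (FreeGroup.of x)) := by
    intro x
    rw [dg_gv_of, dg_gv_inv]
    split_ifs
    · rw [anti_mul, hη, anti_single, neg_mul]
    · simp
  induction g using FreeGroup.induction_on with
  | C1 => simp [dg_one]
  | of x => exact hof x
  | inv_of x _ => rw [inv_inv, hof, anti_anti]
  | mul x y hx hy =>
    rw [mul_inv_rev, dg_mul, dg_mul, map_add, anti_mul, anti_mul, hx, hy, anti_single, anti_single,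
      add_comm]

lemma dg_supp {Yset : Set (FreeGroup ι)} (hη : η ∈ supported ℝ ℝ Yset) (g : FreeGroup ι) :
    dg (gv a η) g ∈ supported ℝ ℝ {z | ∃ p q y, y ∈ Yset ∧ p * q = g ∧ z = p * y * q} := by
  induction g using FreeGroup.induction_on with
  | C1 => rw [dg_one]; exact Submodule.zero_mem _
  | of x =>
    rw [dg_gv_of]
    split_ifs
    · exact single_mul_mem hη fun y hy => ⟨_, 1, y, hy, mul_one _, (mul_one _).symm⟩
    · exact Submodule.zero_mem _
  | inv_of x _ =>
    rw [dg_gv_inv]
    split_ifs
    · exact Submodule.neg_mem _ (mul_single_mem hη fun y hy =>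
        ⟨1, _, y, hy, one_mul _, by rw [one_mul]⟩)
    · exact Submodule.zero_mem _
  | mul g h hg hh =>
    rw [dg_mul]
    refine Submodule.add_mem _ (single_mul_mem hh ?_) (mul_single_mem hg ?_)
    · rintro _ ⟨p, q, y, hy, rfl, rfl⟩
      exact ⟨g * p, q, y, hy, mul_assoc _ _ _, by simp only [mul_assoc]⟩
    · rintro _ ⟨p, q, y, hy, rfl, rfl⟩
      exact ⟨p, q * h, y, hy, (mul_assoc _ _ _).symm, by simp only [mul_assoc]⟩

lemma dg_trace {c : ι} (hc : c ≠ a)
    (hη : η ∈ supported ℝ ℝ {y | ∃ (z : FreeGroup ι) (k : ℤ), y = z * FreeGroup.of c ^ k * z⁻¹})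
    (g : FreeGroup ι) : (dg (gv a η) g).coeff 1 = 0 := by
  have hcomm : ∀ x y : FreeGroup ι,
      (dg (gv a η) (x * y)).coeff 1 = (dg (gv a η) (y * x)).coeff 1 := by
    intro x y
    rw [dg_mul, dg_mul, coeff_add, coeff_add, Finsupp.add_apply, Finsupp.add_apply,
      coeff_one_mul_comm (single x 1), coeff_one_mul_comm (single y 1), add_comm]
  by_cases hg : ∃ (z : FreeGroup ι) (k : ℤ), g = z * FreeGroup.of c ^ k * z⁻¹
  · obtain ⟨z, k, rfl⟩ := hg
    rw [hcomm, inv_mul_cancel_left, dg_zpow _ (by rw [dg_gv_of, if_neg hc])]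
    simp
  · refine mem_supported'.1 (dg_supp a η hη g) 1 ?_
    rintro ⟨p, q, y, ⟨z, k, rfl⟩, rfl, h⟩
    refine hg ⟨p * z, -k, ?_⟩
    have : q = (p * (z * FreeGroup.of c ^ k * z⁻¹))⁻¹ := eq_inv_of_mul_eq_one_right h.symm
    rw [this]; group

/-- The trace preserving derivation attached to `η`. -/
noncomputable def mkDer {c : ι} (hc : c ≠ a) (h1 : anti η = -η)
    (hη : η ∈ supported ℝ ℝ {y | ∃ (z : FreeGroup ι) (k : ℤ), y = z * FreeGroup.of c ^ k * z⁻¹}) :
    Der (FreeGroup ι) where
  D := der (gv a η)
  mul := der_mul _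
  ant F := lin_ext (f₁ := der (gv a η) ∘ₗ anti) (f₂ := anti ∘ₗ der (gv a η))
    (fun g => by simp [dg_anti a η h1]) F
  tr F := by
    induction F using MonoidAlgebra.induction_linear with
    | zero => simp
    | add x y hx hy => simp [hx, hy]
    | single g r => simp [dg_trace a η hc hη]

variable {E : Type*} [NormedAddCommGroup E] [NormedSpace ℝ E]

lemma bnd1 : ∃ C : ℝ, 0 ≤ C ∧ ∃ D : ℕ, ∀ (L : RG (FreeGroup ι) →ₗ[ℝ] E) (K : ℝ) (m : ℕ), 0 ≤ K →
    (∀ g : FreeGroup ι, g.norm ≤ m + D → ‖L (single g 1)‖ ≤ K) →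
    ∀ p q : FreeGroup ι, p.norm + q.norm ≤ m → ‖L (single p 1 * η * single q 1)‖ ≤ C * K := by
  induction η using MonoidAlgebra.induction_linear with
  | zero => exact ⟨0, le_rfl, 0, fun L K m _ _ p q _ => by simp⟩
  | add x y hx hy =>
    obtain ⟨C1, h1, D1, hx⟩ := hx
    obtain ⟨C2, h2, D2, hy⟩ := hy
    refine ⟨C1 + C2, by positivity, D1 + D2, fun L K m hK hL p q hpq => ?_⟩
    rw [mul_add, add_mul, map_add, add_mul]
    exact (norm_add_le _ _).trans (add_le_add
      (hx L K m hK (fun g hg => hL g (by omega)) p q hpq)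
      (hy L K m hK (fun g hg => hL g (by omega)) p q hpq))
  | single y r =>
    refine ⟨|r|, abs_nonneg r, y.norm, fun L K m hK hL p q hpq => ?_⟩
    have : (single p 1 * single y r * single q 1 : RG (FreeGroup ι)) =
        r • single (p * y * q) 1 := by simp [single_mul_single]
    rw [this, map_smul, norm_smul, Real.norm_eq_abs]
    refine mul_le_mul_of_nonneg_left (hL _ ?_) (abs_nonneg r)
    have h1 := FreeGroup.norm_mul_le (p * y) q
    have h2 := FreeGroup.norm_mul_le p y
    omega

lemma bnd2 : ∃ C : ℝ, 0 ≤ C ∧ ∃ D : ℕ, ∀ (L : RG (FreeGroup ι) →ₗ[ℝ] E) (K : ℝ) (m : ℕ), 0 ≤ K →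
    (∀ g : FreeGroup ι, g.norm ≤ m + D → ‖L (single g 1)‖ ≤ K) →
    ∀ g : FreeGroup ι, g.norm ≤ m → ‖L (der (gv a η) (single g 1))‖ ≤ C * m * K := by
  obtain ⟨C, hC, D, h⟩ := bnd1 (E := E) η
  refine ⟨C, hC, D, fun L K m hK hL g hg => ?_⟩
  have key : ∀ (l : List (ι × Bool)) (p : FreeGroup ι), p.norm + l.length ≤ m →
      ‖L (single p 1 * dg (gv a η) (FreeGroup.mk l))‖ ≤ C * l.length * K := by
    intro l
    induction l with
    | nil =>
      intro p _
      rw [show (FreeGroup.mk [] : FreeGroup ι) = 1 from rfl, dg_one]; simp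
    | cons x l ih =>
      intro p hp
      rw [List.length_cons] at hp
      have hx : (FreeGroup.mk [x]).norm ≤ 1 := FreeGroup.norm_mk_le
      have hl : (FreeGroup.mk l).norm ≤ l.length := FreeGroup.norm_mk_le
      have hpx := FreeGroup.norm_mul_le p (FreeGroup.mk [x])
      have hxl := FreeGroup.norm_mul_le (FreeGroup.mk [x]) (FreeGroup.mk l)
      rw [show FreeGroup.mk (x :: l) = FreeGroup.mk [x] * FreeGroup.mk l from rfl, dg_mul, mul_add,
        map_add, ← mul_assoc, single_mul_single, mul_one, List.length_cons]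
      have h1 := ih (p * FreeGroup.mk [x]) (by omega)
      have h2 : ‖L (single p 1 * (dg (gv a η) (FreeGroup.mk [x]) * single (FreeGroup.mk l) 1))‖ ≤
          C * K := by
        obtain ⟨x, ε⟩ := x
        cases ε with
        | true =>
          have e : dg (gv a η) (FreeGroup.mk [(x, true)]) = _ := dg_gv_of a η x
          rw [e]
          split_ifs
          · rw [← mul_assoc, ← mul_assoc, single_mul_single, mul_one]
            exact h L K m hK hL _ _ (by change (p * FreeGroup.mk [(x, true)]).norm + _ ≤ m; omega)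
          · simp only [zero_mul, mul_zero, map_zero, norm_zero]; positivity
        | false =>
          have e : dg (gv a η) (FreeGroup.mk [(x, false)]) = _ := dg_gv_inv a η x
          rw [e]
          split_ifs
          · rw [neg_mul, mul_neg, map_neg, norm_neg, mul_assoc, single_mul_single, mul_one,
              ← mul_assoc]
            exact h L K m hK hL _ _
              (by change _ + (FreeGroup.mk [(x, false)] * FreeGroup.mk l).norm ≤ m; omega)
          · simp only [zero_mul, mul_zero, map_zero, norm_zero]; positivity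
      refine (norm_add_le _ _).trans ?_
      push_cast
      linarith
  have := key g.toWord 1 (by rw [FreeGroup.norm_one, zero_add]; exact hg)
  rw [FreeGroup.mk_toWord, ← one_def, one_mul] at this
  rw [der_single, one_smul]
  refine this.trans (mul_le_mul_of_nonneg_right (mul_le_mul_of_nonneg_left ?_ hC) hK)
  exact_mod_cast hg

theorem bnd3 : ∃ θ : ℝ, 0 < θ ∧ ∀ F : RG (FreeGroup ι), ∃ K : ℝ, 0 ≤ K ∧
    ∀ (L : RG (FreeGroup ι) →ₗ[ℝ] E), (∀ g, ‖L (single g 1)‖ ≤ 1) →
      ∀ k : ℕ, ‖L ((der (gv a η) ^ k) F)‖ ≤ K * θ ^ k * k ! := by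
  obtain ⟨C, hC, D, h⟩ := bnd2 (E := E) a η
  have key : ∀ (L : RG (FreeGroup ι) →ₗ[ℝ] E), (∀ g, ‖L (single g 1)‖ ≤ 1) → ∀ (k m : ℕ)
      (g : FreeGroup ι), g.norm ≤ (D + 1) * m →
      ‖L ((der (gv a η) ^ k) (single g 1))‖ ≤ (C * (D + 1)) ^ k * m.ascFactorial k := by
    intro L hL k
    induction k with
    | zero => intro m g _; simpa using hL g
    | succ k ih =>
      intro m g hg
      have := h (L ∘ₗ (der (gv a η) ^ k)) ((C * (D + 1)) ^ k * (m + 1).ascFactorial k)
        ((D + 1) * m) (by positivity) (fun g hg => ih (m + 1) g (by rw [mul_add]; omega)) g hg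
      rw [pow_succ, Module.End.mul_apply]
      refine this.trans (le_of_eq ?_)
      have e := Nat.succ_ascFactorial m k
      rw [← Nat.ascFactorial_succ] at e
      rw [← e]
      push_cast
      ring
  refine ⟨2 * (C * (D + 1)) + 1, by positivity, fun F => ?_⟩
  induction F using MonoidAlgebra.induction_linear with
  | zero => exact ⟨0, le_rfl, fun L _ k => by simp⟩
  | add x y hx hy =>
    obtain ⟨K1, h1, hx⟩ := hx
    obtain ⟨K2, h2, hy⟩ := hy
    refine ⟨K1 + K2, by positivity, fun L hL k => ?_⟩
    rw [map_add, map_add, add_mul, add_mul]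
    exact (norm_add_le _ _).trans (add_le_add (hx L hL k) (hy L hL k))
  | single g r =>
    refine ⟨|r| * 2 ^ g.norm, by positivity, fun L hL k => ?_⟩
    have e : (single g r : RG (FreeGroup ι)) = r • single g 1 := by simp
    rw [e, map_smul, map_smul, norm_smul, Real.norm_eq_abs, mul_assoc, mul_assoc]
    refine mul_le_mul_of_nonneg_left ?_ (abs_nonneg r)
    refine (key L hL k g.norm g (by nlinarith [Nat.zero_le (D * g.norm)])).trans ?_
    have h1 : g.norm.ascFactorial k ≤ k ! * 2 ^ (g.norm + k) := by
      rw [Nat.ascFactorial_eq_factorial_mul_choose']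
      exact Nat.mul_le_mul_left _ ((Nat.choose_le_two_pow _ _).trans
        (Nat.pow_le_pow_right (by norm_num) (Nat.sub_le _ _)))
    have h2 : (g.norm.ascFactorial k : ℝ) ≤ k ! * 2 ^ (g.norm + k) := by exact_mod_cast h1
    have h3 : (2 * (C * (D + 1))) ^ k ≤ (2 * (C * (D + 1)) + 1) ^ k :=
      pow_le_pow_left₀ (by positivity) (by linarith) k
    calc (C * (D + 1)) ^ k * (g.norm.ascFactorial k : ℝ)
        ≤ (C * (D + 1)) ^ k * (k ! * 2 ^ (g.norm + k)) :=
          mul_le_mul_of_nonneg_left h2 (by positivity)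
      _ = 2 ^ g.norm * ((2 * (C * (D + 1))) ^ k * k !) := by rw [mul_pow 2, pow_add]; ring
      _ ≤ _ := by gcongr

end free

end Crest.Agent.H0183
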