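import Mathlib
import Crest.Agent.H0183.Der

set_option autoImplicit false

namespace Crest.Agent.H0183

open scoped BigOperators Nat InnerProductSpace
open MonoidAlgebra

/-- A tracial GNS embedding of a C⋆-algebra in a Hilbert space. -/
structure GNS (𝔄 H : Type*) [CStarAlgebra 𝔄] [NormedAddCommGroup H] [InnerProductSpace ℂ H] where
  /-- the embedding `x ↦ x Ω` -/
  j : 𝔄 →L[ℂ] H
  inner : ∀ x y z, ⟪j x, j (y * z)⟫_ℂ = ⟪j (star y * x), j z⟫_ℂ
  le : ∀ x, ‖j x‖ ≤ ‖x‖
  one : ‖j 1‖ = 1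
  nstar : ∀ x, ‖j (star x)‖ = ‖j x‖

variable {𝔄 H : Type*} [CStarAlgebra 𝔄] [NormedAddCommGroup H] [InnerProductSpace ℂ H]

lemma norm_le_one_of_star_mul {w : 𝔄} (h : star w * w = 1) : ‖w‖ ≤ 1 := by
  obtain (_ | _) := subsingleton_or_nontrivial 𝔄
  · rw [Subsingleton.elim w 0]; simp
  have := CStarRing.norm_star_mul_self (x := w)
  rw [h, norm_one] at this
  nlinarith [norm_nonneg w]

namespace GNS
variable (T : GNS 𝔄 H)

/-- The trace. -/
noncomputable def τ : 𝔄 →L[ℂ] ℂ := innerSL ℂ (T.j 1) ∘L T.j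

lemma τ_apply (x : 𝔄) : T.τ x = ⟪T.j 1, T.j x⟫_ℂ := rfl

lemma inner_eq (x y : 𝔄) : ⟪T.j x, T.j y⟫_ℂ = T.τ (star x * y) := by
  rw [τ_apply, T.inner, star_star, mul_one]

lemma τ_one : T.τ 1 = 1 := by
  rw [τ_apply, inner_self_eq_norm_sq_to_K, T.one]; simp

lemma norm_unit_mul {w : 𝔄} (h : star w * w = 1) (x : 𝔄) : ‖T.j (w * x)‖ = ‖T.j x‖ := by
  rw [@norm_eq_sqrt_re_inner ℂ, @norm_eq_sqrt_re_inner ℂ, T.inner, ← mul_assoc, h, one_mul]

lemma norm_mul_unit {w : 𝔄} (h : w * star w = 1) (x : 𝔄) : ‖T.j (x * w)‖ = ‖T.j x‖ := by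
  rw [← T.nstar, star_mul, T.norm_unit_mul (by rw [star_star, h]), T.nstar]

end GNS

variable {G : Type*} [Group G]

/-- Unitary representation. -/
def IsRep (π : G →* 𝔄) : Prop := ∀ g, star (π g) = π g⁻¹

lemma IsRep.star_mul {π : G →* 𝔄} (h : IsRep π) (g : G) : star (π g) * π g = 1 := by
  rw [h, ← map_mul, inv_mul_cancel, map_one]

lemma IsRep.mul_star {π : G →* 𝔄} (h : IsRep π) (g : G) : π g * star (π g) = 1 := by
  rw [h, ← map_mul, mul_inv_cancel, map_one]

/-- Evaluation of group algebra elements. -/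
noncomputable def ev (π : G →* 𝔄) : RG G →ₐ[ℝ] 𝔄 := MonoidAlgebra.lift ℝ 𝔄 G π

@[simp] lemma ev_single (π : G →* 𝔄) (g : G) (r : ℝ) : ev π (single g r) = r • π g := by
  simp [ev]

lemma IsRep.star_ev {π : G →* 𝔄} (h : IsRep π) (F : RG G) : star (ev π F) = ev π (anti F) := by
  induction F using MonoidAlgebra.induction_linear with
  | zero => simp
  | add x y hx hy => simp [hx, hy]
  | single g r => simp [h g]

/-- Regular character. -/
def Reg (T : GNS 𝔄 H) (π : G →* 𝔄) : Prop := ∀ g, g ≠ 1 → T.τ (π g) = 0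

/-- Cyclicity. -/
def Cyc (T : GNS 𝔄 H) (π : G →* 𝔄) : Prop :=
  ∀ ξ, ξ ∈ (Submodule.span ℂ (Set.range fun g => T.j (π g))).topologicalClosure

/-- A free basis. -/
def Good (T : GNS 𝔄 H) (π : G →* 𝔄) : Prop := IsRep π ∧ Reg T π ∧ Cyc T π

variable {T : GNS 𝔄 H} {π : G →* 𝔄}

lemma Reg.orthonormal (h : IsRep π) (hr : Reg T π) : Orthonormal ℂ fun g => T.j (π g) := by
  classical
  rw [orthonormal_iff_ite]
  intro g g'
  rw [T.inner_eq, h, ← map_mul]
  split_ifs with hg
  · rw [hg, inv_mul_cancel, map_one, T.τ_one]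
  · exact hr _ fun h' => hg (inv_mul_eq_one.1 h')

lemma Reg.τ_ev (hr : Reg T π) (F : RG G) : T.τ (ev π F) = F.coeff 1 := by
  classical
  induction F using MonoidAlgebra.induction_linear with
  | zero => simp
  | add x y hx hy => simp [hx, hy]
  | single g r =>
    rw [ev_single, ← Complex.coe_smul, map_smul, coeff_single, Finsupp.single_apply]
    split_ifs with hg
    · rw [hg, map_one, T.τ_one]; simp
    · rw [hr g hg]; simp

lemma j_ev (F : RG G) : T.j (ev π F) = lc (fun g => T.j (π g)) F := by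
  induction F using MonoidAlgebra.induction_linear with
  | zero => simp
  | add x y hx hy => simp [hx, hy]
  | single g r => rw [ev_single, lc_single', ← Complex.coe_smul, map_smul]

lemma j_ev_mem (F : RG G) :
    T.j (ev π F) ∈ Submodule.span ℂ (Set.range fun g => T.j (π g)) := by
  induction F using MonoidAlgebra.induction_linear with
  | zero => simp
  | add x y hx hy => rw [map_add, map_add]; exact Submodule.add_mem _ hx hy
  | single g r =>
    rw [ev_single, ← Complex.coe_smul, map_smul]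
    exact Submodule.smul_mem _ _ (Submodule.subset_span ⟨g, rfl⟩)

lemma Good.comp_equiv {G' : Type*} [Group G'] (h : Good T π) (e : G' ≃* G) :
    Good T (π.comp e.toMonoidHom) := by
  refine ⟨fun g => ?_, fun g hg => h.2.1 _ ?_, fun ξ => ?_⟩
  · simp [h.1 (e g)]
  · simpa using hg
  · have : (Set.range fun g => T.j ((π.comp e.toMonoidHom) g)) =
        Set.range fun g => T.j (π g) := e.surjective.range_comp (fun g => T.j (π g))
    rw [this]; exact h.2.2 ξ

namespace Der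
variable (d : Der G)

lemma D_one : d.D 1 = 0 := by
  have := d.mul 1 1
  rw [one_mul, one_mul, mul_one] at this
  simpa using this

lemma pow_leib (n : ℕ) (F F' : RG G) : (d.D ^ n) (F * F') =
    ∑ ij ∈ Finset.HasAntidiagonal.antidiagonal n, n.choose ij.1 • ((d.D ^ ij.1) F * (d.D ^ ij.2) F') := by
  induction n with
  | zero => simp
  | succ n ih =>
    rw [Finset.sum_antidiagonal_choose_succ_nsmul (fun i j => (d.D ^ i) F * (d.D ^ j) F') n]
    simp only [pow_succ', Module.End.mul_apply, ih, map_sum, map_nsmul, d.mul, smul_add,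
      Finset.sum_add_distrib, add_right_inj]
    refine Finset.sum_congr rfl fun ⟨i, j⟩ hij => ?_
    rw [n.choose_symm_of_eq_add (Finset.HasAntidiagonal.mem_antidiagonal.1 hij).symm]

lemma pow_anti (n : ℕ) (F : RG G) : (d.D ^ n) (anti F) = anti ((d.D ^ n) F) := by
  induction n with
  | zero => simp
  | succ n ih => rw [pow_succ', Module.End.mul_apply, Module.End.mul_apply, ih, d.ant]

lemma pow_skew (n : ℕ) : ∀ F F' : RG G,
    ((d.D ^ n) F * F').coeff 1 = (-1) ^ n * (F * (d.D ^ n) F').coeff 1 := by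
  induction n with
  | zero => simp
  | succ n ih =>
    intro F F'
    have h := d.tr ((d.D ^ n) F * F')
    rw [d.mul, coeff_add, Finsupp.add_apply, ih] at h
    rw [pow_succ' d.D, Module.End.mul_apply, eq_neg_of_add_eq_zero_right h, ← pow_succ' d.D,
      pow_succ d.D, Module.End.mul_apply, pow_succ]
    ring

/-- Factorial bounds. -/
def Bd (𝔄 : Type*) [CStarAlgebra 𝔄] (θ : ℝ) : Prop :=
  ∀ F : RG G, ∃ K : ℝ, 0 ≤ K ∧ ∀ (L : RG G →ₗ[ℝ] 𝔄), (∀ g, ‖L (single g 1)‖ ≤ 1) →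
    ∀ k : ℕ, ‖L ((d.D ^ k) F)‖ ≤ K * θ ^ k * k !

/-- Terms of the exponential series. -/
noncomputable def term (π : G →* 𝔄) (s : ℝ) (F : RG G) (k : ℕ) : 𝔄 :=
  (s ^ k / k !) • ev π ((d.D ^ k) F)

/-- The exponential series. -/
noncomputable def flow (π : G →* 𝔄) (s : ℝ) (F : RG G) : 𝔄 := ∑' k, d.term π s F k

variable {d} {θ s : ℝ}

lemma Bd.term_le (hb : d.Bd 𝔄 θ) (F : RG G) : ∃ K : ℝ, 0 ≤ K ∧ ∀ π : G →* 𝔄, IsRep π →
    ∀ (s : ℝ) (k : ℕ), ‖d.term π s F k‖ ≤ K * (|s| * θ) ^ k := by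
  obtain ⟨K, hK, h⟩ := hb F
  refine ⟨K, hK, fun π hπ s k => ?_⟩
  have h1 := h (ev π).toLinearMap (fun g => by
    simpa using norm_le_one_of_star_mul (hπ.star_mul g)) k
  have hk : (0 : ℝ) < k ! := by exact_mod_cast k.factorial_pos
  rw [term, norm_smul, Real.norm_eq_abs, abs_div, abs_pow, abs_of_pos hk]
  refine (mul_le_mul_of_nonneg_left h1 (by positivity)).trans (le_of_eq ?_)
  rw [mul_pow]; field_simp

lemma Bd.summable_norm (hb : d.Bd 𝔄 θ) (hθ : 0 ≤ θ) (hs : |s| * θ ≤ 1 / 2) (hπ : IsRep π)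
    (F : RG G) : Summable fun k => ‖d.term π s F k‖ := by
  obtain ⟨K, hK, h⟩ := hb.term_le F
  refine Summable.of_nonneg_of_le (fun _ => norm_nonneg _) (h π hπ s) ?_
  exact (summable_geometric_of_lt_one (by positivity) (by linarith)).mul_left K

lemma Bd.remainder (hb : d.Bd 𝔄 θ) (hθ : 0 ≤ θ) (F : RG G) : ∃ K : ℝ, 0 ≤ K ∧
    ∀ π : G →* 𝔄, IsRep π → ∀ s : ℝ, |s| * θ ≤ 1 / 2 →
      ‖d.flow π s F - ev π F - s • ev π (d.D F)‖ ≤ K * s ^ 2 := by
  obtain ⟨K, hK, h⟩ := hb.term_le F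
  refine ⟨2 * K * θ ^ 2, by positivity, fun π hπ s hs => ?_⟩
  have hsum := (hb.summable_norm hθ hs hπ F).of_norm
  have e : d.flow π s F - ev π F - s • ev π (d.D F) = ∑' k, d.term π s F (k + 2) := by
    rw [flow, ← hsum.sum_add_tsum_nat_add 2, Finset.sum_range_succ, Finset.sum_range_one]
    simp [term]
    abel
  rw [e]
  have hg : HasSum (fun k : ℕ => K * θ ^ 2 * s ^ 2 * (1 / 2 : ℝ) ^ k) (K * θ ^ 2 * s ^ 2 * 2) :=
    hasSum_geometric_two.mul_left _
  refine (tsum_of_norm_bounded hg fun k => (h π hπ s _).trans ?_).trans (le_of_eq (by ring))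
  have h1 : (|s| * θ) ^ k ≤ (1 / 2) ^ k := pow_le_pow_left₀ (by positivity) hs k
  calc K * (|s| * θ) ^ (k + 2) = K * θ ^ 2 * s ^ 2 * (|s| * θ) ^ k := by
        rw [pow_add, mul_pow |s| θ 2, sq_abs]; ring
    _ ≤ _ := mul_le_mul_of_nonneg_left h1 (by positivity)

lemma flow_of_zero (π : G →* 𝔄) (s : ℝ) {F : RG G} (hF : d.D F = 0) : d.flow π s F = ev π F := by
  rw [flow, tsum_eq_single 0]
  · simp [term]
  · intro k hk
    obtain ⟨m, rfl⟩ := Nat.exists_eq_succ_of_ne_zero hk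
    rw [term, pow_succ d.D, Module.End.mul_apply, hF]; simp

lemma Bd.flow_add (hb : d.Bd 𝔄 θ) (hθ : 0 ≤ θ) (hs : |s| * θ ≤ 1 / 2) (hπ : IsRep π)
    (F F' : RG G) : d.flow π s (F + F') = d.flow π s F + d.flow π s F' := by
  rw [flow, flow, flow, ← (hb.summable_norm hθ hs hπ F).of_norm.tsum_add
    (hb.summable_norm hθ hs hπ F').of_norm]
  exact tsum_congr fun k => by simp [term]

lemma flow_smul (π : G →* 𝔄) (s r : ℝ) (F : RG G) : d.flow π s (r • F) = r • d.flow π s F := by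
  rw [flow, flow, ← tsum_const_smul'' r]
  exact tsum_congr fun k => by rw [term, term, map_smul, map_smul, smul_comm]

lemma Bd.flow_mul (hb : d.Bd 𝔄 θ) (hθ : 0 ≤ θ) (hs : |s| * θ ≤ 1 / 2) (hπ : IsRep π)
    (F F' : RG G) : d.flow π s (F * F') = d.flow π s F * d.flow π s F' := by
  rw [flow, flow, flow, tsum_mul_tsum_eq_tsum_sum_antidiagonal_of_summable_norm
    (hb.summable_norm hθ hs hπ F) (hb.summable_norm hθ hs hπ F')]
  refine tsum_congr fun n => ?_
  rw [term, d.pow_leib, map_sum, Finset.smul_sum]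
  refine Finset.sum_congr rfl fun ⟨i, j⟩ hij => ?_
  rw [Finset.HasAntidiagonal.mem_antidiagonal] at hij
  simp only at hij ⊢
  subst hij
  rw [term, term, map_nsmul, map_mul, smul_mul_smul_comm, ← Nat.cast_smul_eq_nsmul ℝ, smul_smul]
  congr 1
  have h := Nat.add_choose_mul_factorial_mul_factorial j i
  rw [add_comm j i] at h
  have h' : (((i + j)! : ℕ) : ℝ) = (i + j).choose i * j ! * i ! := by exact_mod_cast h.symm
  have hi : (i ! : ℝ) ≠ 0 := by exact_mod_cast i.factorial_ne_zero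
  have hj : (j ! : ℝ) ≠ 0 := by exact_mod_cast j.factorial_ne_zero
  have hc : ((i + j).choose i : ℝ) ≠ 0 := by
    exact_mod_cast (Nat.choose_pos (Nat.le_add_right i j)).ne'
  rw [h', pow_add]
  field_simp

lemma flow_star (hπ : IsRep π) (s : ℝ) (F : RG G) : star (d.flow π s F) = d.flow π s (anti F) := by
  rw [flow, flow, tsum_star]
  exact tsum_congr fun k => by rw [term, term, star_smul, hπ.star_ev, d.pow_anti, star_trivial]

lemma Bd.τ_flow (hb : d.Bd 𝔄 θ) (hθ : 0 ≤ θ) (hs : |s| * θ ≤ 1 / 2) (hπ : IsRep π)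
    (hr : Reg T π) (F : RG G) : T.τ (d.flow π s F) = F.coeff 1 := by
  rw [flow, T.τ.map_tsum (hb.summable_norm hθ hs hπ F).of_norm, tsum_eq_single 0]
  · simp [term, hr.τ_ev]
  · intro k hk
    obtain ⟨m, rfl⟩ := Nat.exists_eq_succ_of_ne_zero hk
    rw [term, ← Complex.coe_smul, map_smul, hr.τ_ev, pow_succ' d.D, Module.End.mul_apply, d.tr]
    simp

lemma Bd.τ_flow_mul (hb : d.Bd 𝔄 θ) (hθ : 0 ≤ θ) (hs : |s| * θ ≤ 1 / 2) (hπ : IsRep π)
    (hr : Reg T π) (F F' : RG G) :
    T.τ (d.flow π s F * ev π F') = T.τ (ev π F * d.flow π (-s) F') := by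
  have h1 := (hb.summable_norm hθ hs hπ F).of_norm
  have h2 := (hb.summable_norm (s := -s) hθ (by rwa [abs_neg]) hπ F').of_norm
  rw [flow, flow, ← h1.tsum_mul_right, ← h2.tsum_mul_left, T.τ.map_tsum (h1.mul_right _),
    T.τ.map_tsum (h2.mul_left _)]
  refine tsum_congr fun k => ?_
  rw [term, term, smul_mul_assoc, mul_smul_comm, ← map_mul, ← map_mul, ← Complex.coe_smul,
    ← Complex.coe_smul, map_smul, map_smul, hr.τ_ev, hr.τ_ev, d.pow_skew, neg_pow s]
  simp only [smul_eq_mul]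
  push_cast
  ring

theorem Bd.exists_good (hb : d.Bd 𝔄 θ) (hθ : 0 ≤ θ) (hs : |s| * θ ≤ 1 / 2) (hπ : Good T π) :
    ∃ π' : G →* 𝔄, Good T π' ∧ ∀ F, ev π' F = d.flow π s F := by
  obtain ⟨h1, h2, h3⟩ := hπ
  let π' : G →* 𝔄 :=
    { toFun := fun g => d.flow π s (single g 1)
      map_one' := by rw [← one_def, flow_of_zero π s d.D_one, map_one]
      map_mul' := fun g h => by rw [← hb.flow_mul hθ hs h1, single_mul_single, mul_one] }
  have hev : ∀ F, ev π' F = d.flow π s F := by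
    intro F
    induction F using MonoidAlgebra.induction_linear with
    | zero => rw [flow_of_zero π s (map_zero _), map_zero, map_zero]
    | add x y hx hy => rw [map_add, hb.flow_add hθ hs h1, hx, hy]
    | single g r =>
      have : (single g r : RG G) = r • single g 1 := by simp
      rw [ev_single, this, flow_smul]; rfl
  have h1' : IsRep π' := fun g => by
    change star (d.flow π s (single g 1)) = d.flow π s (single g⁻¹ 1)
    rw [flow_star h1, anti_single]
  have h2' : Reg T π' := fun g hg => by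
    change T.τ (d.flow π s (single g 1)) = 0
    rw [hb.τ_flow hθ hs h1 h2]
    simp [hg]
  refine ⟨π', ⟨h1', h2', fun ξ => ?_⟩, hev⟩
  suffices h : ∀ g, T.j (π g) ∈
      (Submodule.span ℂ (Set.range fun g => T.j (π' g))).topologicalClosure by
    exact Submodule.topologicalClosure_minimal _ (Submodule.span_le.2 (Set.range_subset_iff.2 h))
      (Submodule.isClosed_topologicalClosure _) (h3 ξ)
  intro g
  have hs' : |-s| * θ ≤ 1 / 2 := by rwa [abs_neg]
  let f : ℕ → RG G := fun n => ∑ k ∈ Finset.range n, ((-s) ^ k / k !) • (d.D ^ k) (single g 1)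
  set z := d.flow π (-s) (single g 1) with hz
  have hzz : star z * z = 1 := by
    rw [hz, flow_star h1, ← hb.flow_mul hθ hs' h1, anti_single, single_mul_single, inv_mul_cancel,
      mul_one, ← one_def, flow_of_zero π _ d.D_one, map_one]
  have hz1 : ‖T.j z‖ = 1 := by rw [← mul_one z, T.norm_unit_mul hzz, T.one]
  have hg1 : ‖T.j (π g)‖ = 1 := (h2.orthonormal h1).1 g
  have t1 : Filter.Tendsto (fun n => T.j (ev π (f n))) Filter.atTop (nhds (T.j z)) := by
    refine (T.j.continuous.tendsto z).comp ?_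
    have := (hb.summable_norm hθ hs' h1 (single g 1)).of_norm.hasSum.tendsto_sum_nat
    simpa [f, term, hz, flow] using this
  have e1 : ∀ n, ‖T.j (ev π' (f n)) - T.j (π g)‖ ^ 2 =
      ‖T.j (ev π (f n))‖ ^ 2 - 2 * (⟪T.j (ev π (f n)), T.j z⟫_ℂ).re + 1 := by
    intro n
    have a1 : ‖T.j (ev π' (f n))‖ = ‖T.j (ev π (f n))‖ := by
      rw [j_ev, j_ev, norm_lc (h2.orthonormal h1), norm_lc (h2'.orthonormal h1')]
    have a2 : ⟪T.j (ev π' (f n)), T.j (π g)⟫_ℂ = ⟪T.j (ev π (f n)), T.j z⟫_ℂ := by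
      have := hb.τ_flow_mul hθ hs h1 h2 (anti (f n)) (single g 1)
      rw [ev_single, one_smul] at this
      rw [T.inner_eq, T.inner_eq, hev, flow_star h1, h1.star_ev, this]
    rw [@norm_sub_sq ℂ, a1, a2, hg1]
    simp
  have t2 : Filter.Tendsto (fun n => ‖T.j (ev π' (f n)) - T.j (π g)‖ ^ 2) Filter.atTop
      (nhds 0) := by
    simp only [e1]
    have := ((t1.norm.pow 2).sub (((Complex.continuous_re.tendsto _).comp
      (t1.inner (𝕜 := ℂ) (tendsto_const_nhds (x := T.j z)))).const_mul 2)).add_const 1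
    rw [inner_self_eq_norm_sq_to_K, hz1] at this
    norm_num at this
    simpa using this
  have t3 : Filter.Tendsto (fun n => T.j (ev π' (f n))) Filter.atTop (nhds (T.j (π g))) := by
    rw [tendsto_iff_norm_sub_tendsto_zero]
    have := (Real.continuous_sqrt.tendsto 0).comp t2
    simpa [Function.comp_def] using this
  exact mem_closure_of_tendsto t3 (Filter.Eventually.of_forall fun n => j_ev_mem _)

end Der

end Crest.Agent.H0183
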