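import Mathlib
import Crest.Agent.H0183.Flow

set_option autoImplicit false

namespace Crest.Agent.H0183

open scoped BigOperators InnerProductSpace

variable {𝔄 H : Type*} [CStarAlgebra 𝔄] [NormedAddCommGroup H] [InnerProductSpace ℂ H]

/-- A skew-adjoint trigonometric polynomial. -/
noncomputable def hpol (N : ℕ) (γ : ℕ → ℝ) (t : 𝔄) : 𝔄 :=
  ∑ k ∈ Finset.range N, γ k • (t ^ (k + 1) - star t ^ (k + 1))

lemma star_hpol (N : ℕ) (γ : ℕ → ℝ) (t : 𝔄) : star (hpol N γ t) = -hpol N γ t := by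
  rw [hpol, star_sum, ← Finset.sum_neg_distrib]
  refine Finset.sum_congr rfl fun k _ => ?_
  rw [star_smul, star_trivial, star_sub, star_pow, star_pow, star_star, ← smul_neg, neg_sub]

lemma exp_unitary {x : 𝔄} (h : star x = -x) : NormedSpace.exp x ∈ unitary 𝔄 :=
  letI : NormedAlgebra ℚ 𝔄 := NormedAlgebra.restrictScalars ℚ ℂ 𝔄
  NormedSpace.exp_mem_unitary_of_mem_skewAdjoint (skewAdjoint.mem_iff.2 h)

lemma scalar_log {r ε : ℝ} (hr0 : 0 ≤ r) (hr : r < 1) (hε : 0 < ε) :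
    ∃ (N : ℕ) (γ : ℕ → ℝ), ∀ z : ℂ, ‖z‖ = 1 →
      ‖(1 + r * star z) * Complex.exp (hpol N γ z) - (1 + r * z)‖ ≤ ε := by
  have h1 : 0 < (1 - r)⁻¹ := inv_pos.2 (by linarith)
  obtain ⟨N, hN⟩ := exists_nat_gt ((1 - r)⁻¹ / min (ε / 8) (1 / 2))
  have hm : 0 < min (ε / 8) (1 / 2) := by positivity
  refine ⟨N, fun k => (-1) ^ k * r ^ (k + 1) / (k + 1), fun z hz => ?_⟩
  set w : ℂ := r * z with hw
  have hwn : ‖w‖ = r := by rw [hw, norm_mul, hz, mul_one, Complex.norm_real, Real.norm_of_nonneg hr0]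
  have hb := Complex.norm_log_sub_logTaylor_le N (z := w) (by rw [hwn]; exact hr)
  rw [hwn] at hb
  set P := Complex.logTaylor (N + 1) w with hP
  set l := Complex.log (1 + w) with hl
  have hb2 : ‖l - P‖ ≤ min (ε / 8) (1 / 2) := by
    refine hb.trans ?_
    rw [div_lt_iff₀ hm] at hN
    rw [div_le_iff₀ (by positivity)]
    have := mul_le_of_le_one_left h1.le (pow_le_one₀ hr0 hr.le (n := N + 1))
    nlinarith
  have e1 : hpol N (fun k => (-1) ^ k * r ^ (k + 1) / (k + 1)) z = P - star P := by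
    rw [hP, Complex.logTaylor, Finset.sum_range_succ', hpol]
    simp only [Nat.cast_zero, div_zero, add_zero]
    rw [star_sum, ← Finset.sum_sub_distrib]
    refine Finset.sum_congr rfl fun k _ => ?_
    simp only [hw, Complex.real_smul, Complex.star_def, map_div₀, map_mul, map_pow, map_neg,
      map_one, Complex.conj_ofReal, map_natCast, mul_pow]
    push_cast
    ring
  have hne : 1 + w ≠ 0 := by
    intro h
    have : w = -1 := by linear_combination h
    rw [this, norm_neg, norm_one] at hwn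
    linarith
  have e2 : Complex.exp l = 1 + w := Complex.exp_log hne
  have e3 : Complex.exp (star l) = 1 + r * star z := by
    rw [Complex.star_def, Complex.exp_conj, e2, hw]; simp
  have e4 : (1 + r * star z) * Complex.exp (P - star P) - (1 + w) =
      (1 + w) * (Complex.exp (star (l - P) - (l - P)) - 1) := by
    rw [← e3, ← e2, mul_sub, mul_one, ← Complex.exp_add, ← Complex.exp_add, star_sub]
    congr 2
    ring
  have hn : ‖star (l - P) - (l - P)‖ ≤ 2 * min (ε / 8) (1 / 2) := by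
    refine (norm_sub_le _ _).trans ?_
    rw [norm_star]; linarith
  have h5 := Complex.norm_exp_sub_one_le (x := star (l - P) - (l - P))
    (hn.trans (by linarith [min_le_right (ε / 8) (1 / 2)]))
  have h6 : ‖1 + w‖ ≤ 2 := (norm_add_le _ _).trans (by rw [norm_one, hwn]; linarith)
  rw [e1, e4, norm_mul]
  have h7 := min_le_left (ε / 8) (1 / 2)
  calc _ ≤ 2 * (2 * (2 * min (ε / 8) (1 / 2))) :=
        mul_le_mul h6 (h5.trans (by linarith)) (norm_nonneg _) (by norm_num)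
    _ ≤ ε := by linarith

lemma cfc_hpol (N : ℕ) (γ : ℕ → ℝ) (t : 𝔄) [IsStarNormal t] :
    cfc (fun z : ℂ => hpol N γ z) t = hpol N γ t := by
  have : (fun z : ℂ => hpol N γ z) =
      ∑ k ∈ Finset.range N, fun z : ℂ => γ k • (z ^ (k + 1) - star z ^ (k + 1)) := by
    ext z; simp [hpol]
  rw [this, cfc_sum _ _ _ (fun k _ => by fun_prop), hpol]
  refine Finset.sum_congr rfl fun k _ => ?_
  rw [cfc_smul .., cfc_sub .., cfc_pow_id .., cfc_pow .., cfc_star_id ..]

lemma op_log {r ε : ℝ} (hr0 : 0 ≤ r) (hr : r < 1) (hε : 0 < ε) :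
    ∃ (N : ℕ) (γ : ℕ → ℝ), ∀ t : 𝔄, t ∈ unitary 𝔄 →
      ‖(1 + (r : ℂ) • star t) * NormedSpace.exp (hpol N γ t) - (1 + (r : ℂ) • t)‖ ≤ ε := by
  obtain ⟨N, γ, h⟩ := scalar_log hr0 hr hε
  refine ⟨N, γ, fun t ht => ?_⟩
  have : IsStarNormal t := ⟨ht.1.trans ht.2.symm⟩
  have hc : Continuous fun z : ℂ => hpol N γ z := by unfold hpol; fun_prop
  have hn : IsStarNormal (hpol N γ t) := by rw [← cfc_hpol]; exact cfc_predicate _ _
  have e : (1 + (r : ℂ) • star t) * NormedSpace.exp (hpol N γ t) - (1 + (r : ℂ) • t) =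
      cfc (fun z : ℂ => (1 + r * star z) * Complex.exp (hpol N γ z) - (1 + r * z)) t := by
    rw [cfc_sub .., cfc_mul .., cfc_const_add .., cfc_const_add .., cfc_const_mul ..,
      cfc_const_mul_id .., cfc_star_id .., cfc_comp' Complex.exp (fun z : ℂ => hpol N γ z) t,
      cfc_hpol, map_one, CFC.complex_exp_eq_normedSpace_exp hn]
  rw [e]
  exact norm_cfc_le hε.le fun z hz => h z (spectrum.norm_eq_one_of_unitary ht hz)

theorem exists_log {ε : ℝ} (hε : 0 < ε) : ∃ (N : ℕ) (γ : ℕ → ℝ), ∀ (T : GNS 𝔄 H) (t : 𝔄),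
    t ∈ unitary 𝔄 → Orthonormal ℂ (fun k : ℕ => T.j (star t ^ k)) →
      ‖T.j (NormedSpace.exp (hpol N γ t) - t)‖ ≤ ε := by
  set ρ : ℝ := min (ε / 6) (1 / 2) with hρ
  have hρ0 : 0 < ρ := by positivity
  have hρ1 : ρ ≤ 1 / 2 := min_le_right _ _
  have hρ2 : ρ ≤ ε / 6 := min_le_left _ _
  set r : ℝ := 1 - ρ ^ 2 with hr
  have hr0 : 0 ≤ r := by nlinarith
  have hr1 : r < 1 := by nlinarith
  obtain ⟨M, hM⟩ := exists_pow_lt_of_lt_one (show 0 < ε / 6 by positivity) hr1
  obtain ⟨N, γ, h⟩ := op_log (𝔄 := 𝔄) hr0 hr1 (show 0 < ε / 3 / (M + 1) by positivity)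
  refine ⟨N, γ, fun T t ht ho => ?_⟩
  set y := NormedSpace.exp (hpol N γ t) with hy
  have hyu : y ∈ unitary 𝔄 := exp_unitary (star_hpol N γ t)
  set Q := (1 + (r : ℂ) • star t) * y - (1 + (r : ℂ) • t) with hQ
  have hQn : ‖Q‖ ≤ ε / 3 / (M + 1) := h t ht
  set x : 𝔄 := -((r : ℂ) • star t) with hx
  have ht1 : ‖t‖ ≤ 1 := norm_le_one_of_star_mul ht.1
  have hone : ‖(1 : 𝔄)‖ ≤ 1 := norm_le_one_of_star_mul (by simp)
  have hxn : ‖x‖ ≤ r := by
    rw [hx, norm_neg, norm_smul, norm_star, Complex.norm_real, Real.norm_of_nonneg hr0]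
    exact mul_le_of_le_one_right hr0 ht1
  have hxk : ∀ k : ℕ, ‖x ^ k‖ ≤ r ^ k := by
    intro k
    induction k with
    | zero => simpa using hone
    | succ k ih =>
      rw [pow_succ, pow_succ]
      exact (norm_mul_le _ _).trans (mul_le_mul ih hxn (norm_nonneg _) (by positivity))
  set Gs := ∑ k ∈ Finset.range M, x ^ k with hGs
  have hG : Gs * (1 - x) = 1 - x ^ M := geom_sum_mul_neg x M
  have e1 : (1 - x) * (y - t) = Q + ((1 - r : ℝ) : ℂ) • (1 - t) := by
    rw [mul_sub, hQ, hx, sub_neg_eq_add, add_mul 1 _ t, one_mul, smul_mul_assoc, ht.1]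
    push_cast
    module
  have e2 : y - t = Gs * Q + ((1 - r : ℝ) : ℂ) • (Gs - Gs * t) + x ^ M * (y - t) := by
    have : Gs - Gs * t = Gs * (1 - t) := by rw [mul_sub, mul_one]
    rw [this, ← mul_smul_comm, ← mul_add, ← e1, ← mul_assoc, hG, sub_mul, one_mul, sub_add_cancel]
  have b1 : ‖T.j (Gs * Q)‖ ≤ ε / 3 := by
    have : ‖Gs‖ ≤ M := by
      refine (norm_sum_le _ _).trans ((Finset.sum_le_sum fun k _ =>
        (hxk k).trans (pow_le_one₀ hr0 hr1.le)).trans (by simp))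
    refine (T.le _).trans ((norm_mul_le _ _).trans ((mul_le_mul this hQn (norm_nonneg _)
      (by positivity)).trans ?_))
    rw [mul_div_assoc', div_le_iff₀ (by positivity)]
    nlinarith
  have b2 : ‖T.j Gs‖ ≤ ρ⁻¹ := by
    have e3 : T.j Gs = ∑ k ∈ Finset.range M, ((-r : ℝ) : ℂ) ^ k • T.j (star t ^ k) := by
      rw [hGs, map_sum]
      refine Finset.sum_congr rfl fun k _ => ?_
      rw [hx, ← neg_smul, smul_pow, map_smul]; simp
    have e4 : ‖T.j Gs‖ ^ 2 = ∑ k ∈ Finset.range M, (r ^ 2) ^ k := by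
      rw [← @inner_self_eq_norm_sq ℂ, e3, ho.inner_sum, map_sum]
      refine Finset.sum_congr rfl fun k _ => ?_
      rw [← Complex.ofReal_pow, Complex.conj_ofReal, ← Complex.ofReal_mul, ← mul_pow]
      simp only [RCLike.re_to_complex, Complex.ofReal_re]
      congr 1; ring
    have e5 : ∑ k ∈ Finset.range M, (r ^ 2) ^ k ≤ (1 - r)⁻¹ := by
      refine (Finset.sum_le_sum fun k _ => pow_le_pow_left₀ (by positivity)
        (show r ^ 2 ≤ r by nlinarith) k).trans ?_
      rw [← tsum_geometric_of_lt_one hr0 hr1]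
      exact (summable_geometric_of_lt_one hr0 hr1).sum_le_tsum _ fun _ _ => by positivity
    refine (pow_le_pow_iff_left₀ (norm_nonneg _) (by positivity) two_ne_zero).1 ?_
    rw [e4, inv_pow]
    refine e5.trans (le_of_eq ?_)
    rw [hr]; ring
  have b3 : ‖T.j (((1 - r : ℝ) : ℂ) • (Gs - Gs * t))‖ ≤ ε / 3 := by
    rw [map_smul, norm_smul, Complex.norm_real, Real.norm_of_nonneg (by linarith), map_sub]
    have : ‖T.j Gs - T.j (Gs * t)‖ ≤ 2 * ρ⁻¹ := by
      refine (norm_sub_le _ _).trans ?_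
      rw [T.norm_mul_unit ht.2]; linarith
    refine (mul_le_mul_of_nonneg_left this (by linarith)).trans ?_
    have : (1 - r) * (2 * ρ⁻¹) = 2 * ρ := by rw [hr]; field_simp; ring
    linarith
  have b4 : ‖T.j (x ^ M * (y - t))‖ ≤ ε / 3 := by
    have : ‖y - t‖ ≤ 2 := (norm_sub_le _ _).trans (by
      linarith [norm_le_one_of_star_mul hyu.1])
    refine (T.le _).trans ((norm_mul_le _ _).trans ((mul_le_mul (hxk M) this (norm_nonneg _)
      (by positivity)).trans (by linarith)))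
  rw [e2, map_add, map_add]
  refine (norm_add₃_le).trans ?_
  linarith

end Crest.Agent.H0183
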