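import Mathlib
import Crest.Agent.H0183.Basic

set_option autoImplicit false

namespace Crest.Agent.H0183

open scoped BigOperators
open MonoidAlgebra

/-- The free group on two generators. -/
abbrev F2 := FreeGroup Bool

namespace Tree

/-- First generator. -/
def a : F2 := FreeGroup.of true
/-- Second generator. -/
def b : F2 := FreeGroup.of false

/-- First letter of the reduced word. -/
def fl (g : F2) : Option (Bool × Bool) := g.toWord.head?

lemma fl_mul (x ε : Bool) (g : F2) (h : fl g ≠ some (x, !ε)) :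
    fl (FreeGroup.mk [(x, ε)] * g) = some (x, ε) := by
  unfold fl at *
  rw [FreeGroup.toWord_mul, FreeGroup.toWord_mk, FreeGroup.reduce_singleton, List.singleton_append,
    FreeGroup.reduce.cons, FreeGroup.reduce_toWord]
  cases hg : g.toWord with
  | nil => rfl
  | cons hd tl =>
    rw [hg] at h
    simp only [List.head?_cons, ne_eq, Option.some.injEq] at h
    have : ¬ (x = hd.1 ∧ ε = !hd.2) := by
      rintro ⟨h1, h2⟩
      apply h
      rw [h1, h2]; simp
    simp only [this, if_false, List.head?_cons]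

/-- Starts with `a`. -/
def Ap (g : F2) : Prop := fl g = some (true, true)
/-- Starts with `a⁻¹`. -/
def Am (g : F2) : Prop := fl g = some (true, false)

lemma h1p {g : F2} (h : ¬ Am g) : Ap (a * g) := fl_mul true true g h
lemma h1m {g : F2} (h : ¬ Ap g) : Am (a⁻¹ * g) := fl_mul true false g h
lemma hd {g : F2} (h : Ap g) (h' : Am g) : False := by
  unfold Ap at h; unfold Am at h'; rw [h] at h'; simp at h'
lemma fl_one : fl 1 = none := rfl
lemma h0p : ¬ Ap 1 := by unfold Ap; rw [fl_one]; simp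
lemma h0m : ¬ Am 1 := by unfold Am; rw [fl_one]; simp

lemma h2 {g : F2} (h : Ap g ∨ Am g ∨ g = 1) {k : ℤ} (hk : k ≠ 0) :
    ¬ Ap (b ^ k * g) ∧ ¬ Am (b ^ k * g) := by
  have hnb : ∀ ε, fl g ≠ some (false, ε) := by
    intro ε
    rcases h with h | h | h
    · unfold Ap at h; rw [h]; simp
    · unfold Am at h; rw [h]; simp
    · rw [h, fl_one]; simp
  have key : ∀ (ε : Bool) (n : ℕ),
      fl ((FreeGroup.mk [(false, ε)]) ^ (n + 1) * g) = some (false, ε) := by
    intro ε n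
    induction n with
    | zero => rw [zero_add, pow_one]; exact fl_mul _ _ _ (hnb _)
    | succ n ih =>
      rw [pow_succ', mul_assoc]
      refine fl_mul _ _ _ ?_
      rw [ih]; simp
  have : ∃ ε, fl (b ^ k * g) = some (false, ε) := by
    obtain ⟨n, rfl | rfl⟩ := Int.eq_nat_or_neg k
    · obtain ⟨m, rfl⟩ : ∃ m, n = m + 1 := ⟨n - 1, by omega⟩
      exact ⟨true, by rw [zpow_natCast]; exact key true m⟩
    · obtain ⟨m, rfl⟩ : ∃ m, n = m + 1 := ⟨n - 1, by omega⟩
      exact ⟨false, by rw [zpow_neg, zpow_natCast, ← inv_pow]; exact key false m⟩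
  obtain ⟨ε, hε⟩ := this
  unfold Ap Am
  rw [hε]; simp

lemma notAp_of_Am {g : F2} (h : Am g) (k : ℤ) : ¬ Ap (b ^ k * g) := by
  by_cases hk : k = 0
  · rw [hk, zpow_zero, one_mul]; exact fun h' => hd h' h
  · exact (h2 (Or.inr (Or.inl h)) hk).1

lemma notAm_of_Ap {g : F2} (h : Ap g) (k : ℤ) : ¬ Am (b ^ k * g) := by
  by_cases hk : k = 0
  · rw [hk, zpow_zero, one_mul]; exact fun h' => hd h h'
  · exact (h2 (Or.inl h) hk).2

lemma not_one (k : ℤ) : ¬ Ap (b ^ k * 1) ∧ ¬ Am (b ^ k * 1) := by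
  by_cases hk : k = 0
  · rw [hk, zpow_zero, one_mul]; exact ⟨h0p, h0m⟩
  · exact h2 (Or.inr (Or.inr rfl)) hk

/-- The blocks `b^t a`. -/
def d (t : ℕ) : F2 := b ^ (t : ℤ) * a

/-- The prefixes. -/
def u : ℕ → F2
  | 0 => 1
  | j + 1 => u j * d j

lemma notAm_d {g : F2} (h : ¬ Am g) (t : ℕ) : ¬ Am (d t * g) := by
  rw [d, mul_assoc]; exact notAm_of_Ap (h1p h) _

lemma Am_dinv' {g : F2} {t : ℕ} (h : ¬ Ap (b ^ (-(t : ℤ)) * g)) : Am ((d t)⁻¹ * g) := by
  rw [d, mul_inv_rev, mul_assoc, ← zpow_neg]; exact h1m h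

lemma Am_dinv {g : F2} (h : Am g) (t : ℕ) : Am ((d t)⁻¹ * g) := Am_dinv' (notAp_of_Am h _)

lemma up (m i : ℕ) : ∀ g : F2, ¬ Am g → Ap (b ^ (-(i : ℤ)) * ((u i)⁻¹ * u (i + m + 1) * g)) := by
  induction m with
  | zero =>
    intro g hg
    have : b ^ (-(i : ℤ)) * ((u i)⁻¹ * u (i + 0 + 1) * g) = a * g := by
      simp only [u, d]; group
    rw [this]; exact h1p hg
  | succ m ih =>
    intro g hg
    have : (u i)⁻¹ * u (i + (m + 1) + 1) * g = (u i)⁻¹ * u (i + m + 1) * (d (i + m + 1) * g) := by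
      rw [show i + (m + 1) + 1 = (i + m + 1) + 1 by ring, u]; group
    rw [this]; exact ih _ (notAm_d hg _)

lemma down (m j : ℕ) {g : F2} (hg : Am g) : Am ((u (j + m))⁻¹ * u j * g) := by
  induction m with
  | zero => simpa using hg
  | succ m ih =>
    have : (u (j + (m + 1)))⁻¹ * u j * g = (d (j + m))⁻¹ * ((u (j + m))⁻¹ * u j * g) := by
      rw [← add_assoc, u]; group
    rw [this]; exact Am_dinv ih _

/-- Words hanging below an `x`-vertex of type `i + 1`. -/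
def Z (i : ℕ) (x : F2) : Prop := Ap (b ^ (-((i : ℤ) + 1)) * x) ∨ Am (d i * x)

/-- Admissible tails after the prefix `u j`. -/
def R (j : ℕ) (x : F2) : Prop := x = 1 ∨ ∃ l, l + 1 ≠ j ∧ Z l x

lemma Zm_Am {i : ℕ} {x : F2} (h : Am (d i * x)) : Am x := by
  have := Am_dinv h i
  rwa [inv_mul_cancel_left] at this

lemma Zp_notAm {k : ℤ} {x : F2} (h : Ap (b ^ k * x)) : ¬ Am x := by
  have := notAm_of_Ap h (-k)
  rwa [← mul_assoc, ← zpow_add, neg_add_cancel, zpow_zero, one_mul] at this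

lemma d_shift (i l : ℕ) (x : F2) : d i * x = b ^ ((i : ℤ) - l) * (d l * x) := by
  simp only [d]; group

lemma Z_disj {i l : ℕ} {x : F2} (h : Z i x) (h' : Z l x) : i = l := by
  by_contra hne
  have hk : (i : ℤ) - l ≠ 0 := by omega
  rcases h with h | h <;> rcases h' with h' | h'
  · refine (h2 (Or.inl h) hk).1 ?_
    rwa [← mul_assoc, ← zpow_add, show (i : ℤ) - l + -((i : ℤ) + 1) = -((l : ℤ) + 1) by ring]
  · exact Zp_notAm h (Zm_Am h')
  · exact Zp_notAm h' (Zm_Am h)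
  · rw [d_shift i l] at h
    exact (h2 (Or.inr (Or.inl h')) hk).2 h

lemma P1 {j : ℕ} {z : F2} (h : R (j + 1) z) : ¬ Am (d j * z) := by
  rcases h with rfl | ⟨l, hl, h | h⟩
  · exact notAm_d h0m _
  · exact notAm_d (Zp_notAm h) _
  · rw [d_shift j l]
    exact (h2 (Or.inr (Or.inl h)) (by omega)).2

lemma P2 {j : ℕ} {z : F2} (h : R j z) : ¬ Ap (b ^ (-(j : ℤ)) * z) := by
  rcases h with rfl | ⟨l, hl, h | h⟩
  · exact (not_one _).1
  · have := (h2 (Or.inl h) (k := (l : ℤ) + 1 - j) (by omega)).1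
    rwa [← mul_assoc, ← zpow_add, show (l : ℤ) + 1 - j + -((l : ℤ) + 1) = -(j : ℤ) by ring] at this
  · exact notAp_of_Am (Zm_Am h) _

lemma P3 {j : ℕ} {z : F2} (h : R (j + 1) z) (h' : R j (d j * z)) : False := by
  by_cases hz : Am z
  · rcases h with rfl | ⟨l', hl', h | h⟩
    · exact h0m hz
    · exact Zp_notAm h hz
    · have hk : (j : ℤ) - l' ≠ 0 := by omega
      rw [d_shift j l'] at h'
      rcases h' with h' | ⟨l, _, h' | h'⟩
      · have := (h2 (Or.inr (Or.inr rfl)) (k := -((j : ℤ) - l')) (by omega)).2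
        apply this
        rwa [← h', ← mul_assoc, ← zpow_add, neg_add_cancel, zpow_zero, one_mul]
      · rw [← mul_assoc, ← zpow_add] at h'
        exact notAp_of_Am h _ h'
      · exact (h2 (Or.inr (Or.inl h)) hk).2 (Zm_Am h')
  · apply P2 h'
    have : b ^ (-(j : ℤ)) * (d j * z) = a * z := by simp only [d]; group
    rw [this]; exact h1p hz

/-- Words starting with the prefix `u j`. -/
def Y (j : ℕ) : Set F2 := {y | R j ((u j)⁻¹ * y)}

lemma Y_disj_lt {j j' : ℕ} (hj : j < j') {y : F2} (h : y ∈ Y j) (h' : y ∈ Y j') : False := by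
  obtain ⟨m, rfl⟩ := Nat.exists_eq_add_of_lt hj
  have h : R j ((u j)⁻¹ * y) := h
  have h' : R (j + m + 1) ((u (j + m + 1))⁻¹ * y) := h'
  cases m with
  | zero =>
    refine P3 h' ?_
    have : d j * ((u (j + 0 + 1))⁻¹ * y) = (u j)⁻¹ * y := by
      simp only [add_zero, u]; group
    rw [this]; exact h
  | succ m =>
    apply P2 h
    have := up m j _ (P1 h')
    have e : (u j)⁻¹ * u (j + m + 1) * (d (j + (m + 1)) * ((u (j + (m + 1) + 1))⁻¹ * y)) =
        (u j)⁻¹ * y := by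
      rw [show u (j + (m + 1) + 1) = u (j + m + 1) * d (j + (m + 1)) from rfl]; group
    rwa [e] at this

lemma Y_disj {j j' : ℕ} (hj : j ≠ j') (y : F2) (h : y ∈ Y j) (h' : y ∈ Y j') : False := by
  rcases lt_or_gt_of_ne hj with hj | hj
  · exact Y_disj_lt hj h h'
  · exact Y_disj_lt hj h' h

lemma ZofY {i j : ℕ} (hij : i + 3 ≤ j ∨ j + 1 ≤ i) {y : F2} (h : y ∈ Y j) :
    Z i ((u (i + 1))⁻¹ * y) := by
  have h : R j ((u j)⁻¹ * y) := h
  rcases hij with hij | hij
  · obtain ⟨m, rfl⟩ := Nat.exists_eq_add_of_le hij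
    left
    rw [show i + 3 + m = (i + 1 + m + 1) + 1 by ring] at h
    have := up m (i + 1) _ (P1 h)
    have e : (u (i + 1))⁻¹ * u (i + 1 + m + 1) *
        (d (i + 1 + m + 1) * ((u (i + 1 + m + 1 + 1))⁻¹ * y)) = (u (i + 1))⁻¹ * y := by
      rw [show u (i + 1 + m + 1 + 1) = u (i + 1 + m + 1) * d (i + 1 + m + 1) from rfl]; group
    rw [e] at this
    exact_mod_cast this
  · obtain ⟨m, rfl⟩ := Nat.exists_eq_add_of_le hij
    right
    have := down m (j + 1) (Am_dinv' (P2 h))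
    have e : (u (j + 1 + m))⁻¹ * u (j + 1) * ((d j)⁻¹ * ((u j)⁻¹ * y)) =
        d (j + 1 + m) * ((u (j + 1 + m + 1))⁻¹ * y) := by
      rw [show u (j + 1 + m + 1) = u (j + 1 + m) * d (j + 1 + m) from rfl,
        show u (j + 1) = u j * d j from rfl]; group
    rwa [e] at this

/-- The Fox derivative of `u L`. -/
noncomputable def A (L : ℕ) : RG F2 := ∑ i ∈ Finset.range L, single (u (i + 1)) 1

lemma step (L : ℕ) (hL : 4 ≤ L) (Φ : ℕ → RG F2) (hΦ : ∀ j, Φ j ∈ supported ℝ ℝ (Y j)) :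
    ∃ (B : RG F2) (Ψ : ℕ → RG F2), (∀ j, Ψ j ∈ supported ℝ ℝ (Y (j + 1))) ∧
      A L * B = ∑ j ∈ Finset.range (L + 1), Φ j + ∑ j ∈ Finset.range L, Ψ j ∧
      nn B ^ 2 ≤ (∑ j ∈ Finset.range (L + 1), nn (Φ j) ^ 2) / ((L : ℝ) - 3) ∧
      ∑ j ∈ Finset.range L, nn (Ψ j) ^ 2 ≤ L * nn B ^ 2 := by
  classical
  let I : ℕ → Finset ℕ := fun j => (Finset.range L).filter fun i => i + 3 ≤ j ∨ j + 1 ≤ i
  have hL3 : (0 : ℝ) < (L : ℝ) - 3 := by
    have : (4 : ℝ) ≤ L := by exact_mod_cast hL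
    linarith
  have hI : ∀ j, (L : ℝ) - 3 ≤ (I j).card := by
    intro j
    have h1 : Finset.range L ⊆ I j ∪ {j - 2, j - 1, j} := by
      intro i hi
      simp only [I, Finset.mem_union, Finset.mem_filter, Finset.mem_insert, Finset.mem_singleton]
      by_cases h : i + 3 ≤ j ∨ j + 1 ≤ i
      · exact Or.inl ⟨hi, h⟩
      · right; omega
    have h2 := (Finset.card_le_card h1).trans (Finset.card_union_le _ _)
    have h3 : ({j - 2, j - 1, j} : Finset ℕ).card ≤ 3 := Finset.card_le_three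
    rw [Finset.card_range] at h2
    have h4 : L ≤ (I j).card + 3 := by omega
    have : (L : ℝ) ≤ (I j).card + 3 := by exact_mod_cast h4
    linarith
  have hI0 : ∀ j, (0 : ℝ) < (I j).card := fun j => hL3.trans_le (hI j)
  let w : ℕ → ℝ := fun j => ((I j).card : ℝ)⁻¹
  let J : ℕ → Finset ℕ := fun i => (Finset.range (L + 1)).filter fun j => i + 3 ≤ j ∨ j + 1 ≤ i
  let χ : ℕ → RG F2 := fun i => single (u (i + 1))⁻¹ 1 * ∑ j ∈ J i, w j • Φ j
  have hswap : ∀ {E : Type} [AddCommMonoid E] (f : ℕ → E),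
      ∑ i ∈ Finset.range L, ∑ j ∈ J i, f j = ∑ j ∈ Finset.range (L + 1), (I j).card • f j := by
    intro E _ f
    simp only [J, I, Finset.sum_filter]
    rw [Finset.sum_comm]
    refine Finset.sum_congr rfl fun j _ => ?_
    rw [← Finset.sum_filter, Finset.sum_const]
  have hχ : ∀ i, χ i ∈ supported ℝ ℝ {x | Z i x} := by
    intro i
    simp only [χ]
    rw [Finset.mul_sum]
    refine Submodule.sum_mem _ fun j hj => ?_
    exact single_mul_mem (Submodule.smul_mem _ _ (hΦ j))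
      fun x hx => ZofY (Finset.mem_filter.1 hj).2 hx
  have hZ : ∀ (s : Finset ℕ), nn (∑ i ∈ s, χ i) ^ 2 = ∑ i ∈ s, nn (χ i) ^ 2 := fun s =>
    nn_sum_sq s χ (fun i => {x | Z i x}) (fun i _ => hχ i)
      fun i _ j _ hij g h1 h2 => hij (Z_disj h1 h2)
  refine ⟨∑ i ∈ Finset.range L, χ i,
    fun j => single (u (j + 1)) 1 * ∑ i ∈ (Finset.range L).erase j, χ i, fun j => ?_, ?_, ?_, ?_⟩
  · beta_reduce
    rw [Finset.mul_sum]
    refine Submodule.sum_mem _ fun i hi => single_mul_mem (hχ i) fun x hx => ?_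
    change R (j + 1) ((u (j + 1))⁻¹ * (u (j + 1) * x))
    rw [inv_mul_cancel_left]
    exact Or.inr ⟨i, fun h => (Finset.mem_erase.1 hi).1 (by omega), hx⟩
  · have e1 : ∀ i, single (u (i + 1)) 1 * χ i = ∑ j ∈ J i, w j • Φ j := by
      intro i
      simp only [χ]
      rw [← mul_assoc, single_mul_single, mul_inv_cancel, mul_one, ← one_def, one_mul]
    have e2 : ∑ j ∈ Finset.range (L + 1), Φ j =
        ∑ i ∈ Finset.range L, single (u (i + 1)) 1 * χ i := by
      simp only [e1]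
      rw [hswap]
      refine Finset.sum_congr rfl fun j _ => ?_
      rw [← Nat.cast_smul_eq_nsmul ℝ, smul_smul, mul_inv_cancel₀ (hI0 j).ne', one_smul]
    rw [e2, ← Finset.sum_add_distrib, A, Finset.sum_mul]
    refine Finset.sum_congr rfl fun i hi => ?_
    rw [← mul_add, Finset.add_sum_erase _ _ hi]
  · rw [hZ]
    have e1 : ∀ i, nn (χ i) ^ 2 = ∑ j ∈ J i, (w j) ^ 2 * nn (Φ j) ^ 2 := by
      intro i
      simp only [χ]
      rw [nn_single_mul, nn_sum_sq _ _ Y (fun j _ => Submodule.smul_mem _ _ (hΦ j))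
        (fun i _ j _ hij => Y_disj hij)]
      refine Finset.sum_congr rfl fun j _ => ?_
      rw [nn_smul, mul_pow, sq_abs]
    simp only [e1]
    rw [hswap, Finset.sum_div]
    refine Finset.sum_le_sum fun j _ => ?_
    have e2 : (I j).card • (w j ^ 2 * nn (Φ j) ^ 2) = nn (Φ j) ^ 2 / (I j).card := by
      have := (hI0 j).ne'
      simp only [w, nsmul_eq_mul]; field_simp
    rw [e2]
    exact div_le_div_of_nonneg_left (sq_nonneg _) hL3 (hI j)
  · rw [hZ]
    calc _ ≤ ∑ j ∈ Finset.range L, ∑ i ∈ Finset.range L, nn (χ i) ^ 2 := by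
          refine Finset.sum_le_sum fun j _ => ?_
          rw [nn_single_mul, hZ]
          exact Finset.sum_le_sum_of_subset_of_nonneg (Finset.erase_subset _ _)
            fun _ _ _ => sq_nonneg _
      _ = _ := by rw [Finset.sum_const, Finset.card_range, nsmul_eq_mul]

lemma iter (L : ℕ) (hL : 4 ≤ L) (m : ℕ) :
    ∃ (B : RG F2) (Ψ : ℕ → RG F2), (∀ j, Ψ j ∈ supported ℝ ℝ (Y (j + 1))) ∧
      A L * B = (m : ℝ) • 1 + ∑ j ∈ Finset.range L, Ψ j ∧
      ∑ j ∈ Finset.range L, nn (Ψ j) ^ 2 ≤ m * ((L : ℝ) / (L - 3)) ^ m ∧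
      nn B ≤ m * √((1 + m * ((L : ℝ) / (L - 3)) ^ m) / (L - 3)) := by
  have hL4 : (4 : ℝ) ≤ L := by exact_mod_cast hL
  have hL3 : (0 : ℝ) < (L : ℝ) - 3 := by linarith
  set κ : ℝ := (L : ℝ) / (L - 3) with hκ
  have hκ1 : 1 ≤ κ := by rw [hκ, le_div_iff₀ hL3]; linarith
  induction m with
  | zero => exact ⟨0, fun _ => 0, fun _ => Submodule.zero_mem _, by simp, by simp [nn_zero],
      by simp [nn_zero]⟩
  | succ m ih =>
    obtain ⟨B, Ψ, hΨ, hAB, h1, h2⟩ := ih
    let Φ : ℕ → RG F2 := fun j => match j with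
      | 0 => 1
      | j + 1 => -Ψ j
    have hΦ : ∀ j, Φ j ∈ supported ℝ ℝ (Y j) := by
      intro j
      cases j with
      | zero =>
        change (1 : RG F2) ∈ _
        rw [supported_eq_span_single]
        exact Submodule.subset_span ⟨1, Or.inl (by simp [u]), rfl⟩
      | succ j => exact Submodule.neg_mem _ (hΨ j)
    obtain ⟨B', Ψ', hΨ', hAB', h1', h2'⟩ := step L hL Φ hΦ
    rw [Finset.sum_range_succ'] at hAB' h1'
    simp only [Φ, nn_neg, nn_one, one_pow, Finset.sum_neg_distrib] at hAB' h1'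
    have hp : 1 ≤ κ ^ m := one_le_pow₀ hκ1
    have hm : (0 : ℝ) ≤ m := Nat.cast_nonneg m
    have h3 : nn B' ^ 2 ≤ (1 + m * κ ^ m) / (L - 3) :=
      h1'.trans (div_le_div_of_nonneg_right (by linarith) hL3.le)
    have h4 : (m : ℝ) * κ ^ m ≤ (m + 1 : ℕ) * κ ^ (m + 1) := by
      push_cast
      rw [pow_succ]
      nlinarith [mul_nonneg hm (zero_le_one.trans hp)]
    refine ⟨B + B', Ψ', hΨ', ?_, ?_, ?_⟩
    · rw [mul_add, hAB, hAB', Nat.cast_succ, add_smul, one_smul]; abel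
    · refine h2'.trans ((mul_le_mul_of_nonneg_left h3 (by linarith)).trans ?_)
      have : (L : ℝ) * ((1 + m * κ ^ m) / (L - 3)) = κ * (1 + m * κ ^ m) := by
        rw [hκ]; field_simp
      rw [this]
      push_cast
      rw [pow_succ]
      nlinarith
    · have h5 : √((1 + m * κ ^ m) / (L - 3)) ≤ √((1 + (m + 1 : ℕ) * κ ^ (m + 1)) / (L - 3)) :=
        Real.sqrt_le_sqrt (div_le_div_of_nonneg_right (by linarith) hL3.le)
      have h6 : nn B' ≤ √((1 + m * κ ^ m) / (L - 3)) := Real.le_sqrt_of_sq_le h3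
      refine (nn_add_le _ _).trans ?_
      have h7 := mul_le_mul_of_nonneg_left h5 hm
      rw [Nat.cast_succ, add_mul, one_mul]
      rw [Nat.cast_succ] at h5 h7
      linarith

theorem exists_inv {δ : ℝ} (hδ : 0 < δ) :
    ∃ (L : ℕ) (B : RG F2), nn (A L * B - 1) ≤ δ ∧ nn B ≤ δ := by
  obtain ⟨m, hm⟩ := exists_nat_gt (2 / δ ^ 2)
  have hm0 : (0 : ℝ) < m := lt_of_le_of_lt (by positivity) hm
  have t0 : Filter.Tendsto (fun L : ℕ => ((L : ℝ) - 3)⁻¹) Filter.atTop (nhds 0) :=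
    tendsto_inv_atTop_zero.comp
      (Filter.tendsto_atTop_add_const_right _ (-3) tendsto_natCast_atTop_atTop)
  have t1 : Filter.Tendsto (fun L : ℕ => (1 + 3 * ((L : ℝ) - 3)⁻¹) ^ m) Filter.atTop
      (nhds ((1 + 3 * 0) ^ m)) := ((t0.const_mul 3).const_add 1).pow m
  have t2 : Filter.Tendsto (fun L : ℕ => (1 + m * 2) * ((L : ℝ) - 3)⁻¹) Filter.atTop
      (nhds ((1 + m * 2) * 0)) := t0.const_mul _
  obtain ⟨L, hL1, hL2, hL⟩ := ((t1.eventually (gt_mem_nhds (show (1 + 3 * 0 : ℝ) ^ m < 2 by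
    simp))).and ((t2.eventually (gt_mem_nhds (show (1 + m * 2) * 0 < δ ^ 2 by
      rw [mul_zero]; positivity))).and (Filter.eventually_ge_atTop 4))).exists
  have hL4 : (4 : ℝ) ≤ L := by exact_mod_cast hL
  have hL3 : (0 : ℝ) < (L : ℝ) - 3 := by linarith
  have hκ : (L : ℝ) / (L - 3) = 1 + 3 * ((L : ℝ) - 3)⁻¹ := by field_simp; ring
  obtain ⟨B, Ψ, hΨ, hAB, h1, h2⟩ := iter L hL m
  rw [hκ] at h1 h2
  refine ⟨L, (m : ℝ)⁻¹ • B, ?_, ?_⟩
  · have e1 : A L * ((m : ℝ)⁻¹ • B) - 1 = (m : ℝ)⁻¹ • ∑ j ∈ Finset.range L, Ψ j := by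
      rw [mul_smul_comm, hAB, smul_add, smul_smul, inv_mul_cancel₀ hm0.ne', one_smul]; abel
    have e2 := nn_sum_sq (Finset.range L) Ψ (fun j => Y (j + 1)) (fun j _ => hΨ j)
      (fun i _ j _ hij => Y_disj (by omega))
    rw [e1, nn_smul, abs_of_pos (inv_pos.2 hm0)]
    refine (pow_le_pow_iff_left₀ (mul_nonneg (by positivity) (nn_nonneg _)) hδ.le two_ne_zero).1 ?_
    rw [mul_pow, e2]
    have e3 : ∑ j ∈ Finset.range L, nn (Ψ j) ^ 2 ≤ m * 2 :=
      h1.trans (mul_le_mul_of_nonneg_left hL1.le hm0.le)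
    refine (mul_le_mul_of_nonneg_left e3 (by positivity)).trans ?_
    rw [div_lt_iff₀ (by positivity)] at hm
    have : ((m : ℝ)⁻¹) ^ 2 * (m * 2) = 2 / m := by field_simp
    rw [this, div_le_iff₀ hm0]
    linarith
  · rw [nn_smul, abs_of_pos (inv_pos.2 hm0), inv_mul_le_iff₀ hm0]
    refine h2.trans (mul_le_mul_of_nonneg_left ?_ hm0.le)
    rw [Real.sqrt_le_iff]
    refine ⟨hδ.le, le_trans ?_ hL2.le⟩
    rw [div_eq_mul_inv]
    refine mul_le_mul_of_nonneg_right ?_ (by positivity)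
    have := mul_le_mul_of_nonneg_left hL1.le hm0.le
    linarith

end Tree

end Crest.Agent.H0183
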