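import Mathlib
import Crest.Agent.H0183.Log
import Crest.Agent.H0183.Tree

set_option autoImplicit false

namespace Crest.Agent.H0183

open scoped BigOperators InnerProductSpace
open MonoidAlgebra

variable {β : Type*} (a b : β)

/-- The embedding of the free group on two generators. -/
def emb : F2 →* FreeGroup (Option β) :=
  FreeGroup.lift fun x => if x then FreeGroup.of (some a) else FreeGroup.of (some b)

lemma emb_a : emb a b Tree.a = FreeGroup.of (some a) := by simp [emb, Tree.a]
lemma emb_b : emb a b Tree.b = FreeGroup.of (some b) := by simp [emb, Tree.b]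

/-- The extra generator. -/
abbrev cc (β : Type*) : FreeGroup (Option β) := FreeGroup.of none

lemma conj_inj {a b : β} (hab : a ≠ b) {k : ℤ} (hk : k ≠ 0) :
    Function.Injective fun x : F2 => emb a b x * cc β ^ k * (emb a b x)⁻¹ := by
  classical
  let lm : F2 →* Equiv.Perm (F2 × ℤ) :=
    { toFun := fun x => (Equiv.mulLeft x).prodCongr (Equiv.refl ℤ)
      map_one' := by ext p <;> simp
      map_mul' := fun x y => by ext p <;> simp [mul_assoc] }
  let sh : Multiplicative ℤ →* Equiv.Perm (F2 × ℤ) :=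
    { toFun := fun n =>
        { toFun := fun p => (p.1, p.2 + if p.1 = 1 then n.toAdd else 0)
          invFun := fun p => (p.1, p.2 - if p.1 = 1 then n.toAdd else 0)
          left_inv := fun p => by simp
          right_inv := fun p => by simp }
      map_one' := by ext p <;> simp
      map_mul' := fun x y => by
        ext p
        · simp
        · simp only [toAdd_mul, Equiv.coe_fn_mk, Equiv.Perm.coe_mul, Function.comp_apply]
          split_ifs <;> ring }
  let ρ : FreeGroup (Option β) →* Equiv.Perm (F2 × ℤ) := FreeGroup.lift fun o =>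
    match o with
    | none => sh (Multiplicative.ofAdd 1)
    | some y => if y = a then lm Tree.a else lm Tree.b
  have h1 : ∀ x, ρ (emb a b x) = lm x := by
    intro x
    have : ρ.comp (emb a b) = lm := by
      ext1 x
      cases x
      · simp [emb, ρ, hab.symm, Tree.b]
      · simp [emb, ρ, Tree.a]
    exact DFunLike.congr_fun this x
  have h2 : ρ (cc β ^ k) = sh (Multiplicative.ofAdd k) := by
    rw [map_zpow]
    simp only [ρ, FreeGroup.lift_apply_of]
    rw [← map_zpow, ← ofAdd_zsmul, smul_eq_mul, mul_one]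
  intro x y hxy
  have h := congrArg (fun g => (ρ g (x, 0)).2) hxy
  have h3 : ∀ x, ρ (emb a b x)⁻¹ = lm x⁻¹ := fun x => by rw [← map_inv, h1]
  simp only [map_mul, h1, h2, h3] at h
  simp [lm, sh] at h
  exact (inv_mul_eq_one.1 (by_contra fun hne => hk (h hne))).symm

/-- Conjugates of a power of the extra generator. -/
noncomputable def cj (k : ℤ) : RG F2 →ₗ[ℝ] RG (FreeGroup (Option β)) :=
  mapDomainLinearMap ℝ ℝ fun x => emb a b x * cc β ^ k * (emb a b x)⁻¹

lemma cj_single (k : ℤ) (x : F2) (r : ℝ) :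
    cj a b k (single x r) = single (emb a b x * cc β ^ k * (emb a b x)⁻¹) r := by simp [cj]

/-- The action of the group algebra of `F2` on the polynomial `h`. -/
noncomputable def sharp (N : ℕ) (γ : ℕ → ℝ) : RG F2 →ₗ[ℝ] RG (FreeGroup (Option β)) :=
  ∑ k ∈ Finset.range N, γ k • (cj a b ((k + 1 : ℕ) : ℤ) - cj a b (-((k + 1 : ℕ) : ℤ)))

variable (N : ℕ) (γ : ℕ → ℝ)

lemma sharp_apply (F : RG F2) : sharp a b N γ F = ∑ k ∈ Finset.range N,
    γ k • (cj a b ((k + 1 : ℕ) : ℤ) F - cj a b (-((k + 1 : ℕ) : ℤ)) F) := by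
  simp [sharp]

lemma anti_sharp (F : RG F2) : anti (sharp a b N γ F) = -sharp a b N γ F := by
  have h : ∀ k : ℤ, anti (cj a b k F) = cj a b (-k) F := fun k =>
    lin_ext (f₁ := anti ∘ₗ cj a b k) (f₂ := cj a b (-k))
      (fun x => by simp [cj_single, mul_assoc]) F
  rw [sharp_apply, map_sum, ← Finset.sum_neg_distrib]
  refine Finset.sum_congr rfl fun k _ => ?_
  rw [map_smul, map_sub, h, h, neg_neg, ← smul_neg, neg_sub]

lemma sharp_mem (F : RG F2) : sharp a b N γ F ∈ supported ℝ ℝ
    {y | ∃ (z : FreeGroup (Option β)) (k : ℤ), y = z * FreeGroup.of none ^ k * z⁻¹} := by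
  have h : ∀ k : ℤ, cj a b k F ∈ supported ℝ ℝ
      {y | ∃ (z : FreeGroup (Option β)) (k : ℤ), y = z * FreeGroup.of none ^ k * z⁻¹} := by
    intro k
    induction F using MonoidAlgebra.induction_linear with
    | zero => simp
    | add x y hx hy => rw [map_add]; exact Submodule.add_mem _ hx hy
    | single g r =>
      have : (single g r : RG F2) = r • single g 1 := by simp
      rw [this, map_smul, cj_single, supported_eq_span_single]
      exact Submodule.smul_mem _ _ (Submodule.subset_span ⟨_, ⟨_, _, rfl⟩, rfl⟩)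
  rw [sharp_apply]
  exact Submodule.sum_mem _ fun k _ => Submodule.smul_mem _ _ (Submodule.sub_mem _ (h _) (h _))

lemma sharp_single_mul (u : F2) (F : RG F2) : sharp a b N γ (single u 1 * F) =
    single (emb a b u) 1 * sharp a b N γ F * single (emb a b u)⁻¹ 1 := by
  have h : ∀ k : ℤ, cj a b k (single u 1 * F) =
      single (emb a b u) 1 * cj a b k F * single (emb a b u)⁻¹ 1 := fun k =>
    lin_ext (f₁ := cj a b k ∘ₗ LinearMap.mulLeft ℝ (single u (1 : ℝ)))
      (f₂ := LinearMap.mulRight ℝ (single (emb a b u)⁻¹ (1 : ℝ)) ∘ₗ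
        LinearMap.mulLeft ℝ (single (emb a b u) (1 : ℝ)) ∘ₗ cj a b k)
      (fun x => by simp [cj_single, single_mul_single, mul_assoc]) F
  rw [sharp_apply, sharp_apply, Finset.mul_sum, Finset.sum_mul]
  refine Finset.sum_congr rfl fun k _ => ?_
  rw [h, h, mul_smul_comm, smul_mul_assoc, mul_sub, sub_mul]

lemma dg_W [DecidableEq β] {a b : β} (hab : a ≠ b) (B : RG F2) (L : ℕ) :
    dg (gv (some a) (sharp a b N γ B)) (emb a b (Tree.u L)) =
      sharp a b N γ (Tree.A L * B) * single (emb a b (Tree.u L)) 1 := by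
  induction L with
  | zero => simp [Tree.u, Tree.A, dg_one]
  | succ L ih =>
    have h1 : dg (gv (some a) (sharp a b N γ B)) (emb a b (Tree.d L)) =
        single (emb a b (Tree.d L)) 1 * sharp a b N γ B := by
      rw [Tree.d, map_mul, map_zpow, emb_a, emb_b, dg_mul, dg_zpow _ (by
        rw [dg_gv_of, if_neg (by simpa using hab.symm)]), dg_gv_of, if_pos rfl, zero_mul,
        add_zero, ← mul_assoc, single_mul_single, mul_one]
    rw [Tree.A, Finset.sum_range_succ, ← Tree.A, add_mul, map_add, sharp_single_mul, add_mul,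
      mul_assoc _ (single _ _), single_mul_single, inv_mul_cancel, mul_one, ← one_def, mul_one,
      Tree.u, map_mul, dg_mul, ih, h1, ← mul_assoc, single_mul_single, mul_assoc,
      single_mul_single, mul_one, add_comm]

variable {𝔄 H : Type*} [CStarAlgebra 𝔄] [NormedAddCommGroup H] [InnerProductSpace ℂ H]
variable {T : GNS 𝔄 H} {π : FreeGroup (Option β) →* 𝔄}

lemma ev_sharp_one (hπ : IsRep π) : ev π (sharp a b N γ 1) = hpol N γ (π (cc β)) := by
  rw [sharp_apply, map_sum, hpol]
  refine Finset.sum_congr rfl fun k _ => ?_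
  rw [one_def, cj_single, cj_single, map_smul, map_sub, ev_single, ev_single, hπ]
  simp only [map_one, one_mul, inv_one, mul_one, one_smul, zpow_neg, zpow_natCast, ← inv_pow,
    map_pow]

lemma norm_sharp {a b : β} (hab : a ≠ b) (hπ : IsRep π) (hr : Reg T π) (F : RG F2) :
    ‖T.j (ev π (sharp a b N γ F))‖ ≤ (∑ k ∈ Finset.range N, 2 * |γ k|) * nn F := by
  have h : ∀ k : ℤ, k ≠ 0 → ‖T.j (ev π (cj a b k F))‖ = nn F := by
    intro k hk
    rw [j_ev, ← norm_lc ((hr.orthonormal hπ).comp _ (conj_inj hab hk)) F]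
    congr 1
    exact lin_ext (f₁ := lc (fun g => T.j (π g)) ∘ₗ cj a b k) (fun x => by simp [cj_single]) F
  rw [sharp_apply, map_sum, map_sum, Finset.sum_mul]
  refine (norm_sum_le _ _).trans (Finset.sum_le_sum fun k _ => ?_)
  rw [map_smul, ← Complex.coe_smul, map_smul, norm_smul, Complex.norm_real, Real.norm_eq_abs,
    map_sub, map_sub, mul_comm 2, mul_assoc]
  refine mul_le_mul_of_nonneg_left ((norm_sub_le _ _).trans ?_) (abs_nonneg _)
  rw [h _ (by omega), h _ (by omega)]
  linarith

theorem key_flow {a b : β} (hab : a ≠ b) (T : GNS 𝔄 H) {ε : ℝ} (hε : 0 < ε) :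
    ∃ W : F2, ∀ π : FreeGroup (Option β) →* 𝔄, Good T π →
      ∃ π' : FreeGroup (Option β) →* 𝔄, Good T π' ∧
        (∀ x, x ≠ some a → π' (FreeGroup.of x) = π (FreeGroup.of x)) ∧
        ‖T.j (π' (FreeGroup.of (some a))) - T.j (π (FreeGroup.of (some a)))‖ ≤ ε ∧
        ‖T.j (π' (emb a b W)) - T.j (π (cc β) * π (emb a b W))‖ ≤ ε := by
  classical
  let _ : NormedAlgebra ℚ 𝔄 := NormedAlgebra.restrictScalars ℚ ℂ 𝔄
  have hε4 : 0 < ε / 4 := by positivity
  obtain ⟨N, γ, hlog⟩ := exists_log (𝔄 := 𝔄) (H := H) hε4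
  set C := ∑ k ∈ Finset.range N, 2 * |γ k| with hC
  have hC0 : 0 ≤ C := Finset.sum_nonneg fun k _ => by positivity
  obtain ⟨L, B, hAB, hB⟩ := Tree.exists_inv (show 0 < ε / 4 / (C + 1) by positivity)
  have hCδ : C * (ε / 4 / (C + 1)) ≤ ε / 4 := by
    rw [mul_div_assoc', div_le_iff₀ (by positivity)]; nlinarith
  set η := sharp a b N γ B with hη
  let d : Der (FreeGroup (Option β)) :=
    mkDer (some a) η (c := none) (by simp) (anti_sharp a b N γ B) (sharp_mem a b N γ B)
  have hd : ∀ g, d.D (single g 1) = dg (gv (some a) η) g := fun g => by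
    simp [d, mkDer]
  obtain ⟨θ, hθ, hb⟩ := bnd3 (E := 𝔄) (some a) η
  replace hb : d.Bd 𝔄 θ := hb
  set W := emb a b (Tree.u L) with hW
  set a' : FreeGroup (Option β) := FreeGroup.of (some a) with ha'
  obtain ⟨K1, hK1, r1⟩ := hb.remainder hθ.le (single a' 1)
  obtain ⟨K2, hK2, r2⟩ := hb.remainder hθ.le (single W 1)
  refine ⟨Tree.u L, fun π hπ => ?_⟩
  set t := π (cc β) with ht
  set h := hpol N γ t with hh
  have hder := (hasDerivAt_exp_smul_const h (0 : ℝ)).isLittleO.bound hε4
  simp only [zero_smul, NormedSpace.exp_zero, sub_zero, one_mul] at hder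
  have tn : Filter.Tendsto (fun n : ℕ => ((n : ℝ))⁻¹) Filter.atTop (nhds 0) :=
    tendsto_inv_atTop_nhds_zero_nat
  have ev1 : ∀ K c : ℝ, 0 < c → ∀ᶠ n : ℕ in Filter.atTop, K * ((n : ℝ))⁻¹ ≤ c := fun K c hc =>
    (tn.const_mul K).eventually (ge_mem_nhds (by rwa [mul_zero]))
  obtain ⟨n, ⟨hn1, hn2, hn3, hn4⟩, hn0⟩ := (((tn.eventually hder).and ((ev1 θ _ one_half_pos).and
    ((ev1 K1 _ hε4).and (ev1 K2 _ hε4)))).and (Filter.eventually_gt_atTop 0)).exists
  have hn0' : (0 : ℝ) < n := by exact_mod_cast hn0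
  set s : ℝ := (n : ℝ)⁻¹ with hs
  have hs0 : 0 < s := by positivity
  have hns : (n : ℝ) * s = 1 := mul_inv_cancel₀ hn0'.ne'
  have hsθ : |s| * θ ≤ 1 / 2 := by rw [abs_of_pos hs0, mul_comm]; exact hn2
  rw [Real.norm_of_nonneg hs0.le] at hn1
  set E := NormedSpace.exp (s • h) with hE
  have hEu : E ∈ unitary 𝔄 :=
    exp_unitary (by rw [star_smul, star_trivial, hh, star_hpol, smul_neg])
  have jsm : ∀ x : 𝔄, ‖T.j (s • x)‖ = s * ‖T.j x‖ := fun x => by
    rw [← Complex.coe_smul, map_smul, norm_smul, Complex.norm_real, Real.norm_of_nonneg hs0.le]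
  have main : ∀ k : ℕ, ∃ π' : FreeGroup (Option β) →* 𝔄, Good T π' ∧
      (∀ x, x ≠ some a → π' (FreeGroup.of x) = π (FreeGroup.of x)) ∧
      ‖T.j (π' a') - T.j (π a')‖ ≤ k * (s * (ε / 2)) ∧
      ‖T.j (π' W) - T.j (E ^ k * π W)‖ ≤ k * (s * (3 * (ε / 4))) := by
    intro k
    induction k with
    | zero => exact ⟨π, hπ, fun _ _ => rfl, by simp, by simp⟩
    | succ k ih =>
      obtain ⟨σ, hσ, f1, f2, f3⟩ := ih
      obtain ⟨σ', hσ', hev⟩ := hb.exists_good hθ.le hsθ hσ
      have hg : ∀ g, σ' g = d.flow σ s (single g 1) := fun g => by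
        rw [← hev, ev_single, one_smul]
      refine ⟨σ', hσ', fun x hx => ?_, ?_, ?_⟩
      · rw [hg, Der.flow_of_zero σ s (by rw [hd, dg_gv_of, if_neg hx]), ev_single, one_smul,
          f1 x hx]
      · have q1 := r1 σ hσ.1 s hsθ
        rw [← hg, ev_single, one_smul, hd, ha', dg_gv_of, if_pos rfl, map_mul, ev_single,
          one_smul, ← ha'] at q1
        have q2 : ‖T.j (s • (σ a' * ev σ η))‖ ≤ s * (ε / 4) := by
          rw [jsm, T.norm_unit_mul (hσ.1.star_mul _)]
          refine mul_le_mul_of_nonneg_left ((norm_sharp N γ hab hσ.1 hσ.2.1 B).trans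
            ((mul_le_mul_of_nonneg_left hB hC0).trans hCδ)) hs0.le
        have q3 := (T.le _).trans q1
        have e : T.j (σ' a') - T.j (π a') = T.j (σ' a' - σ a' - s • (σ a' * ev σ η)) +
            T.j (s • (σ a' * ev σ η)) + (T.j (σ a') - T.j (π a')) := by
          simp only [map_sub]; abel
        rw [e]
        refine norm_add₃_le.trans ?_
        have q4 : K1 * s ^ 2 ≤ s * (ε / 4) := by
          rw [sq, ← mul_assoc, mul_comm s]; exact mul_le_mul_of_nonneg_right hn3 hs0.le
        push_cast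
        linarith
      · have q1 := r2 σ hσ.1 s hsθ
        have e0 : ev σ (sharp a b N γ (Tree.A L * B)) =
            h + ev σ (sharp a b N γ (Tree.A L * B - 1)) := by
          rw [map_sub, map_sub, ev_sharp_one a b N γ hσ.1, f1 none (by simp)]
          abel
        rw [← hg, ev_single, one_smul, hd, hη, hW, dg_W N γ hab, ← hW, map_mul, ev_single,
          one_smul, e0] at q1
        set m := ev σ (sharp a b N γ (Tree.A L * B - 1)) with hm
        have q2 : ‖T.j (s • (m * σ W))‖ ≤ s * (ε / 4) := by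
          rw [jsm, T.norm_mul_unit (hσ.1.mul_star _)]
          refine mul_le_mul_of_nonneg_left ((norm_sharp N γ hab hσ.1 hσ.2.1 _).trans
            ((mul_le_mul_of_nonneg_left hAB hC0).trans hCδ)) hs0.le
        have q3 := (T.le _).trans q1
        have q5 : ‖T.j ((E - 1 - s • h) * σ W)‖ ≤ ε / 4 * s := by
          rw [T.norm_mul_unit (hσ.1.mul_star _)]
          exact (T.le _).trans hn1
        have q6 : ‖T.j (E * (σ W - E ^ k * π W))‖ ≤ k * (s * (3 * (ε / 4))) := by
          rw [T.norm_unit_mul hEu.1, map_sub]; exact f3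
        have e : T.j (σ' W) - T.j (E ^ (k + 1) * π W) =
            (T.j (σ' W - σ W - s • ((h + m) * σ W)) + T.j (s • (m * σ W)) +
              T.j (E * (σ W - E ^ k * π W))) - T.j ((E - 1 - s • h) * σ W) := by
          rw [← map_add, ← map_add, ← map_sub, ← map_sub]
          congr 1
          rw [pow_succ', add_mul, smul_add, mul_sub, sub_mul, sub_mul, one_mul, smul_mul_assoc,
            mul_assoc]
          abel
        rw [e]
        refine (norm_sub_le _ _).trans ((add_le_add_left norm_add₃_le _).trans ?_)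
        have q4 : K2 * s ^ 2 ≤ s * (ε / 4) := by
          rw [sq, ← mul_assoc, mul_comm s]; exact mul_le_mul_of_nonneg_right hn4 hs0.le
        push_cast
        linarith
  obtain ⟨π', hπ', f1, f2, f3⟩ := main n
  rw [← mul_assoc, hns, one_mul] at f2 f3
  refine ⟨π', hπ', f1, f2.trans (by linarith), ?_⟩
  have hEn : E ^ n = NormedSpace.exp h := by
    rw [hE, ← NormedSpace.exp_nsmul, ← Nat.cast_smul_eq_nsmul ℝ, smul_smul, hns, one_smul]
  have ho : Orthonormal ℂ fun k : ℕ => T.j (star t ^ k) := by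
    have hi : Function.Injective fun k : ℕ => (cc β)⁻¹ ^ k := by
      intro k l hkl
      have := congrArg FreeGroup.norm hkl
      simpa only [inv_pow, FreeGroup.norm_inv_eq, FreeGroup.norm_of_pow] using this
    have := (hπ.2.1.orthonormal hπ.1).comp _ hi
    have e : (fun k : ℕ => T.j (star t ^ k)) =
        (fun g => T.j (π g)) ∘ fun k : ℕ => (cc β)⁻¹ ^ k := by
      funext k
      simp only [Function.comp_apply]
      rw [map_pow π, ← hπ.1]
    rw [e]; exact this
  have q := hlog T t ⟨hπ.1.star_mul _, hπ.1.mul_star _⟩ ho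
  rw [← T.norm_mul_unit (hπ.1.mul_star W), sub_mul, map_sub, ← hh, ← hEn] at q
  have e : T.j (π' W) - T.j (t * π W) = (T.j (π' W) - T.j (E ^ n * π W)) +
      (T.j (E ^ n * π W) - T.j (t * π W)) := by abel
  rw [e]
  refine (norm_add_le _ _).trans ?_
  linarith

end Crest.Agent.H0183
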