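import Mathlib
import Crest.Agent.H0183.Key

set_option autoImplicit false

namespace Crest.Agent.H0183

open scoped BigOperators InnerProductSpace

variable {𝔄 H : Type*} [CStarAlgebra 𝔄] [NormedAddCommGroup H] [InnerProductSpace ℂ H]

lemma lip {ι : Type*} (T : GNS 𝔄 H) (g : FreeGroup ι) : ∃ K : ℝ, 0 ≤ K ∧
    ∀ π π' : FreeGroup ι →* 𝔄, IsRep π → IsRep π' → ∀ ε : ℝ, 0 ≤ ε →
      (∀ x, ‖T.j (π (FreeGroup.of x)) - T.j (π' (FreeGroup.of x))‖ ≤ ε) →
      ‖T.j (π g) - T.j (π' g)‖ ≤ K * ε := by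
  induction g using FreeGroup.induction_on with
  | C1 => exact ⟨0, le_rfl, fun π π' _ _ ε _ _ => by simp⟩
  | of x => exact ⟨1, zero_le_one, fun π π' _ _ ε _ h => by simpa using h x⟩
  | inv_of x _ =>
    refine ⟨1, zero_le_one, fun π π' h1 h2 ε _ h => ?_⟩
    rw [← h1, ← h2, ← map_sub, ← star_sub, T.nstar, map_sub, one_mul]
    exact h x
  | mul x y hx hy =>
    obtain ⟨K1, h1, hx⟩ := hx
    obtain ⟨K2, h2, hy⟩ := hy
    refine ⟨K1 + K2, by positivity, fun π π' p1 p2 ε hε h => ?_⟩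
    have e : T.j (π (x * y)) - T.j (π' (x * y)) =
        T.j ((π x - π' x) * π y) + T.j (π' x * (π y - π' y)) := by
      rw [map_mul π, map_mul π', sub_mul, mul_sub, map_sub, map_sub]; abel
    rw [e, add_mul]
    refine (norm_add_le _ _).trans (add_le_add ?_ ?_)
    · rw [T.norm_mul_unit (p1.mul_star _), map_sub]; exact hx π π' p1 p2 ε hε h
    · rw [T.norm_unit_mul (p2.star_mul _), map_sub]; exact hy π π' p1 p2 ε hε h

/-- Complex linear combinations of the vectors `π g Ω`. -/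
noncomputable def lin {G : Type*} [Group G] (T : GNS 𝔄 H) (π : G →* 𝔄) : (G →₀ ℂ) →ₗ[ℂ] H :=
  Finsupp.linearCombination ℂ fun g => T.j (π g)

lemma lipF {ι : Type*} (T : GNS 𝔄 H) (F : FreeGroup ι →₀ ℂ) : ∃ K : ℝ, 0 ≤ K ∧
    ∀ π π' : FreeGroup ι →* 𝔄, IsRep π → IsRep π' → ∀ ε : ℝ, 0 ≤ ε →
      (∀ x, ‖T.j (π (FreeGroup.of x)) - T.j (π' (FreeGroup.of x))‖ ≤ ε) →
      ‖lin T π F - lin T π' F‖ ≤ K * ε := by
  induction F using Finsupp.induction_linear with
  | zero => exact ⟨0, le_rfl, fun π π' _ _ ε _ _ => by simp⟩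
  | add x y hx hy =>
    obtain ⟨K1, h1, hx⟩ := hx
    obtain ⟨K2, h2, hy⟩ := hy
    refine ⟨K1 + K2, by positivity, fun π π' p1 p2 ε hε h => ?_⟩
    rw [map_add, map_add, add_sub_add_comm, add_mul]
    exact (norm_add_le _ _).trans (add_le_add (hx π π' p1 p2 ε hε h) (hy π π' p1 p2 ε hε h))
  | single g c =>
    obtain ⟨K, hK, h⟩ := lip T g
    refine ⟨‖c‖ * K, by positivity, fun π π' p1 p2 ε hε h' => ?_⟩
    simp only [lin, Finsupp.linearCombination_single]
    rw [← smul_sub, norm_smul, mul_assoc]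
    exact mul_le_mul_of_nonneg_left (h π π' p1 p2 ε hε h') (norm_nonneg _)

lemma IsRep.comp {G G' : Type*} [Group G] [Group G'] {π : G →* 𝔄} (h : IsRep π) (f : G' →* G) :
    IsRep (π.comp f) := fun g => by simp [h (f g)]

variable {β : Type*}

/-- The substitution `c ↦ c w`. -/
def twHom (w : FreeGroup β) : FreeGroup (Option β) →* FreeGroup (Option β) :=
  FreeGroup.lift fun o => match o with
    | none => cc β * FreeGroup.map some w
    | some x => FreeGroup.of (some x)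

lemma twHom_map (w v : FreeGroup β) : twHom w (FreeGroup.map some v) = FreeGroup.map some v := by
  have : (twHom w).comp (FreeGroup.map some) = FreeGroup.map some := by
    ext1 x; simp [twHom]
  exact DFunLike.congr_fun this v

lemma twHom_c (w : FreeGroup β) : twHom w (cc β) = cc β * FreeGroup.map some w := by simp [twHom]

lemma twHom_comp (w : FreeGroup β) : (twHom w).comp (twHom w⁻¹) = MonoidHom.id _ := by
  ext1 x
  cases x with
  | none =>
    rw [MonoidHom.comp_apply, twHom_c, map_mul, twHom_c, twHom_map]; simp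
  | some x => simp [twHom]

/-- The twisting automorphism. -/
def tw (w : FreeGroup β) : FreeGroup (Option β) ≃* FreeGroup (Option β) :=
  MonoidHom.toMulEquiv (twHom w⁻¹) (twHom w) (twHom_comp w)
    (by simpa using twHom_comp w⁻¹)

lemma key2 {a b : β} (hab : a ≠ b) (T : GNS 𝔄 H) {ε : ℝ} (hε : 0 < ε)
    {π : FreeGroup (Option β) →* 𝔄} (hπ : Good T π) :
    ∃ (π' : FreeGroup (Option β) →* 𝔄) (W : FreeGroup β), Good T π' ∧
      (∀ x, x ≠ a → π' (FreeGroup.of (some x)) = π (FreeGroup.of (some x))) ∧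
      ‖T.j (π' (FreeGroup.of (some a))) - T.j (π (FreeGroup.of (some a)))‖ ≤ ε ∧
      ‖T.j (π' (FreeGroup.map some W)) - T.j (π (cc β))‖ ≤ ε := by
  obtain ⟨W, hW⟩ := key_flow hab T hε
  let e0 : F2 →* FreeGroup β :=
    FreeGroup.lift fun x => if x then FreeGroup.of a else FreeGroup.of b
  have he : emb a b W = FreeGroup.map some (e0 W) := by
    have : emb a b = (FreeGroup.map some).comp e0 := by
      ext1 x; cases x <;> simp [emb, e0]
    rw [this]; rfl
  obtain ⟨π', h1, h2, h3, h4⟩ := hW _ (hπ.comp_equiv (tw (e0 W)))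
  have hs : ∀ x, (π.comp (tw (e0 W)).toMonoidHom) (FreeGroup.of (some x)) =
      π (FreeGroup.of (some x)) := fun x => by simp [tw, twHom]
  refine ⟨π', e0 W, h1, fun x hx => ?_, ?_, ?_⟩
  · rw [h2 _ (by simpa using hx), hs]
  · rwa [hs] at h3
  · rw [← map_mul, he] at h4
    have : (π.comp (tw (e0 W)).toMonoidHom) (cc β * FreeGroup.map some (e0 W)) = π (cc β) := by
      change π (twHom (e0 W)⁻¹ _) = _
      rw [map_mul, twHom_c, twHom_map]; simp
    rwa [this] at h4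

lemma key3 {a b : β} (hab : a ≠ b) (T : GNS 𝔄 H) {ε : ℝ} (hε : 0 < ε)
    {π : FreeGroup (Option β) →* 𝔄} (hπ : Good T π) (ξ : H) :
    ∃ (π' : FreeGroup (Option β) →* 𝔄) (F : FreeGroup β →₀ ℂ), Good T π' ∧
      (∀ x, x ≠ a → π' (FreeGroup.of (some x)) = π (FreeGroup.of (some x))) ∧
      ‖T.j (π' (FreeGroup.of (some a))) - T.j (π (FreeGroup.of (some a)))‖ ≤ ε ∧
      ‖lin T (π'.comp (FreeGroup.map some)) F - ξ‖ < ε := by
  obtain ⟨ζ, hζ, hd⟩ := Metric.mem_closure_iff.1 (hπ.2.2 ξ) (ε / 2) (half_pos hε)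
  obtain ⟨F₀, rfl⟩ := Finsupp.mem_span_range_iff_exists_finsupp.1 hζ
  obtain ⟨K, hK, hlip⟩ := lipF T F₀
  set ε' := min ε (ε / 2 / (K + 1)) with hε'
  have hε0 : 0 < ε' := by positivity
  obtain ⟨π', W, h1, h2, h3, h4⟩ := key2 hab T hε0 hπ
  let θ : FreeGroup (Option β) →* FreeGroup β := FreeGroup.lift fun o => match o with
    | none => W
    | some x => FreeGroup.of x
  refine ⟨π', F₀.mapDomain θ, h1, h2, h3.trans (min_le_left _ _), ?_⟩
  have q := hlip ((π'.comp (FreeGroup.map some)).comp θ) π ((h1.1.comp _).comp _) hπ.1 ε' hε0.le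
    (fun x => by
      cases x with
      | none => simpa [θ] using h4
      | some x =>
        by_cases hx : x = a
        · subst hx; simpa [θ] using h3
        · simp [θ, h2 x hx, hε0.le])
  have e : lin T (π'.comp (FreeGroup.map some)) (F₀.mapDomain θ) =
      lin T ((π'.comp (FreeGroup.map some)).comp θ) F₀ := by
    simp only [lin]
    rw [Finsupp.linearCombination_mapDomain]; rfl
  have e2 : lin T π F₀ = F₀.sum fun g c => c • T.j (π g) := rfl
  rw [← e2, dist_comm, dist_eq_norm] at hd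
  have q2 : K * ε' ≤ ε / 2 := by
    refine (mul_le_mul_of_nonneg_left (min_le_right _ _) hK).trans ?_
    rw [mul_div_assoc', div_le_iff₀ (by positivity)]; nlinarith
  rw [e, ← sub_add_sub_cancel _ (lin T π F₀)]
  refine (norm_add_le _ _).trans_lt ?_
  linarith

theorem baire [CompleteSpace H] [Countable β] {a b : β} (hab : a ≠ b) (T : GNS 𝔄 H)
    (hC : ∀ ξ ∈ closure {ξ | ∃ u ∈ unitary 𝔄, T.j u = ξ}, ∃ u ∈ unitary 𝔄, T.j u = ξ)
    {π₀ : FreeGroup (Option β) →* 𝔄} (h₀ : Good T π₀) :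
    ∃ π : FreeGroup β →* 𝔄, Good T π := by
  classical
  let rep : unitary 𝔄 → (FreeGroup β →* 𝔄) := fun u => (unitary 𝔄).subtype.comp
    (FreeGroup.lift fun x => if x = a then u else
      ⟨π₀ (FreeGroup.of (some x)), h₀.1.star_mul _, h₀.1.mul_star _⟩)
  have hrep : ∀ u, IsRep (rep u) := fun u g => by
    simp only [rep, MonoidHom.comp_apply, map_inv, Submonoid.subtype_apply]
    rfl
  have hrep_a : ∀ u, rep u (FreeGroup.of a) = u := fun u => by simp [rep]
  have hrep_x : ∀ u x, x ≠ a → rep u (FreeGroup.of x) = π₀ (FreeGroup.of (some x)) :=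
    fun u x hx => by simp [rep, hx]
  have hclose : ∀ (u v : unitary 𝔄) (x : β),
      ‖T.j (rep u (FreeGroup.of x)) - T.j (rep v (FreeGroup.of x))‖ ≤ ‖T.j u - T.j v‖ := by
    intro u v x
    by_cases hx : x = a
    · rw [hx, hrep_a, hrep_a]
    · rw [hrep_x u x hx, hrep_x v x hx, sub_self, norm_zero]; exact norm_nonneg _
  let S : Set H := {ξ | ∃ π : FreeGroup (Option β) →* 𝔄, Good T π ∧
    (∀ x, x ≠ a → π (FreeGroup.of (some x)) = π₀ (FreeGroup.of (some x))) ∧
    T.j (π (FreeGroup.of (some a))) = ξ}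
  have hS : ∀ π : FreeGroup (Option β) →* 𝔄, (hπ : Good T π) →
      (∀ x, x ≠ a → π (FreeGroup.of (some x)) = π₀ (FreeGroup.of (some x))) →
      π.comp (FreeGroup.map some) =
        rep ⟨π (FreeGroup.of (some a)), hπ.1.star_mul _, hπ.1.mul_star _⟩ := by
    intro π hπ h
    ext1 x
    by_cases hx : x = a
    · rw [hx, hrep_a]; simp
    · rw [hrep_x _ x hx]; simp [h x hx]
  have hX : ∀ ξ ∈ closure S, ∃ u : unitary 𝔄, T.j u = ξ := by
    intro ξ hξ
    obtain ⟨u, hu, h⟩ := hC ξ (closure_mono (by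
      rintro _ ⟨π, hπ, -, rfl⟩
      exact ⟨_, ⟨hπ.1.star_mul _, hπ.1.mul_star _⟩, rfl⟩) hξ)
    exact ⟨⟨u, hu⟩, h⟩
  have : CompleteSpace (closure S) := isClosed_closure.completeSpace_coe
  have : Nonempty (closure S) := ⟨⟨_, subset_closure ⟨π₀, h₀, fun _ _ => rfl, rfl⟩⟩⟩
  let O : FreeGroup (Option β) × ℕ → Set (closure S) := fun i =>
    {p | ∃ u : unitary 𝔄, T.j u = p ∧ ∃ F, ‖lin T (rep u) F - T.j (π₀ i.1)‖ < 1 / (i.2 + 1)}
  have hO : ∀ i, IsOpen (O i) := by
    intro i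
    rw [Metric.isOpen_iff]
    rintro p ⟨u, hu, F, hF⟩
    obtain ⟨K, hK, hlip⟩ := lipF T F
    set δ := 1 / ((i.2 : ℝ) + 1) - ‖lin T (rep u) F - T.j (π₀ i.1)‖ with hδ
    have hδ0 : 0 < δ := by linarith
    refine ⟨δ / (K + 1), by positivity, fun q hq => ?_⟩
    obtain ⟨v, hv⟩ := hX q q.2
    refine ⟨v, hv, F, ?_⟩
    have h1 := hlip _ _ (hrep v) (hrep u) _ (norm_nonneg _) (hclose v u)
    rw [Metric.mem_ball, Subtype.dist_eq, dist_eq_norm, ← hu, ← hv,
      lt_div_iff₀ (by positivity)] at hq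
    rw [← sub_add_sub_cancel _ (lin T (rep u) F)]
    refine (norm_add_le _ _).trans_lt ?_
    nlinarith [norm_nonneg (T.j v - T.j u)]
  have hD : ∀ i, Dense (O i) := by
    intro i
    rw [Metric.dense_iff]
    intro p r hr
    obtain ⟨_, ⟨π, hπ, hx, rfl⟩, hd⟩ := Metric.mem_closure_iff.1 p.2 (r / 2) (half_pos hr)
    obtain ⟨π', F, h1, h2, h3, h4⟩ := key3 hab T
      (show 0 < min (r / 2) (1 / ((i.2 : ℝ) + 1)) by positivity) hπ (T.j (π₀ i.1))
    have hx' : ∀ x, x ≠ a → π' (FreeGroup.of (some x)) = π₀ (FreeGroup.of (some x)) :=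
      fun x h => by rw [h2 x h, hx x h]
    refine ⟨⟨_, subset_closure ⟨π', h1, hx', rfl⟩⟩, ?_,
      ⟨π' (FreeGroup.of (some a)), h1.1.star_mul _, h1.1.mul_star _⟩, rfl, F, ?_⟩
    · rw [Metric.mem_ball, Subtype.dist_eq]
      refine (dist_triangle_right _ _ (T.j (π (FreeGroup.of (some a))))).trans_lt ?_
      rw [dist_eq_norm]
      linarith [min_le_left (r / 2) (1 / ((i.2 : ℝ) + 1))]
    · rw [← hS π' h1 hx']
      exact h4.trans_le (min_le_right _ _)
  obtain ⟨p, hp⟩ := (dense_iInter_of_isOpen hO hD).nonempty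
  obtain ⟨u, hu⟩ := hX p p.2
  refine ⟨rep u, hrep u, fun g hg => ?_, fun ξ => ?_⟩
  · obtain ⟨K, hK, hlip⟩ := lip T g
    rw [← norm_le_zero_iff]
    refine le_of_forall_pos_le_add fun ε hε => ?_
    obtain ⟨_, ⟨π, hπ, hx, rfl⟩, hd⟩ := Metric.mem_closure_iff.1 p.2 (ε / (K + 1)) (by positivity)
    have h1 := hlip _ _ (hrep u) (hrep ⟨_, hπ.1.star_mul _, hπ.1.mul_star _⟩) _ (norm_nonneg _)
      (hclose u ⟨π (FreeGroup.of (some a)), hπ.1.star_mul _, hπ.1.mul_star _⟩)
    rw [← hS π hπ hx] at h1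
    have h2 : T.τ (π (FreeGroup.map some g)) = 0 := hπ.2.1 _ fun h =>
      hg (FreeGroup.map_injective (Option.some_injective β) (by rw [h, map_one]))
    rw [dist_eq_norm, ← hu, lt_div_iff₀ (by positivity)] at hd
    have h3 : T.τ (rep u g) = ⟪T.j 1, T.j (rep u g) - T.j (π (FreeGroup.map some g))⟫_ℂ := by
      rw [inner_sub_right, ← T.τ_apply, ← T.τ_apply, h2, sub_zero]
    rw [h3]
    refine (norm_inner_le_norm _ _).trans ?_
    rw [T.one, one_mul]
    refine h1.trans ?_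
    simp only
    nlinarith [norm_nonneg (T.j u - T.j (π (FreeGroup.of (some a))))]
  · suffices h : ∀ g, T.j (π₀ g) ∈
        (Submodule.span ℂ (Set.range fun g => T.j (rep u g))).topologicalClosure by
      exact Submodule.topologicalClosure_minimal _ (Submodule.span_le.2 (Set.range_subset_iff.2 h))
        (Submodule.isClosed_topologicalClosure _) (h₀.2.2 ξ)
    intro g
    refine Metric.mem_closure_iff.2 fun ε hε => ?_
    obtain ⟨m, hm⟩ := exists_nat_one_div_lt hε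
    obtain ⟨v, hv, F, hF⟩ := Set.mem_iInter.1 hp (g, m)
    obtain ⟨K, hK, hlip⟩ := lipF T F
    have h1 := hlip _ _ (hrep u) (hrep v) _ (norm_nonneg _) (hclose u v)
    rw [hu, hv, sub_self, norm_zero, mul_zero, norm_le_zero_iff, sub_eq_zero] at h1
    refine ⟨lin T (rep u) F, Finsupp.mem_span_range_iff_exists_finsupp.2 ⟨F, rfl⟩, ?_⟩
    rw [dist_comm, dist_eq_norm, h1]
    exact hF.trans hm

end Crest.Agent.H0183
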