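import Mathlib
import Crest.Prelude.Def_GroupVNA
import Crest.Agent.H0183.Baire

set_option autoImplicit false

namespace Crest.Agent.H0183

open scoped BigOperators InnerProductSpace
open Crest.OpAlg

variable {G : Type*} [Group G]

lemma lam_apply (g : G) (ξ : ltwo G) (h : G) : leftRegular g ξ h = ξ (g⁻¹ * h) := rfl

/-- The right regular representation. -/
noncomputable def rho (g : G) : ltwo G →L[ℂ] ltwo G :=
  ((ltwoReindex (Equiv.mulRight g) : ltwo G ≃ₗᵢ[ℂ] ltwo G) : ltwo G →L[ℂ] ltwo G)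

lemma rho_apply (g : G) (ξ : ltwo G) (h : G) : rho g ξ h = ξ (h * g) := rfl

lemma lam_mul (g h : G) : leftRegular (g * h) = leftRegular g * leftRegular h := by
  ext ξ k
  simp only [mul_apply_eq_comp, lam_apply, mul_inv_rev, mul_assoc]

lemma lam_one : leftRegular (1 : G) = 1 := by
  ext ξ k
  simp [lam_apply]

lemma lam_rho (g h : G) : leftRegular g * rho h = rho h * leftRegular g := by
  ext ξ k
  simp only [mul_apply_eq_comp, lam_apply, rho_apply, mul_assoc]

lemma star_lam (g : G) : star (leftRegular g) = leftRegular g⁻¹ := by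
  rw [ContinuousLinearMap.star_eq_adjoint]
  symm
  rw [ContinuousLinearMap.eq_adjoint_iff]
  intro ξ η
  have h := (ltwoReindex (Equiv.mulLeft g⁻¹)).inner_map_map (leftRegular g⁻¹ ξ) η
  rw [← h]
  congr 1
  ext k
  change ξ (g⁻¹⁻¹ * (g⁻¹ * k)) = ξ k
  simp

lemma lam_dl (g h : G) : leftRegular g (dl h) = dl (g * h) := by
  classical
  ext k
  rw [lam_apply, dl_apply, dl_apply]
  simp only [inv_mul_eq_iff_eq_mul]

lemma rho_dl (g h : G) : rho g (dl h) = dl (h * g⁻¹) := by
  classical
  ext k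
  rw [rho_apply, dl_apply, dl_apply]
  simp only [eq_mul_inv_iff_mul_eq]

omit [Group G] in
lemma inner_dl (g : G) (ξ : ltwo G) : ⟪dl g, ξ⟫_ℂ = ξ g := by
  classical
  rw [dl_eq, lp.inner_single_left]; simp

omit [Group G] in
lemma dl_dense (ξ : ltwo G) : ξ ∈ (Submodule.span ℂ (Set.range (dl : G → ltwo G))).topologicalClosure := by
  classical
  refine mem_closure_of_tendsto (lp.hasSum_single (by norm_num) ξ)
    (Filter.Eventually.of_forall fun s => Submodule.sum_mem _ fun g _ => ?_)
  have : lp.single 2 g (ξ g) = ξ g • dl g := by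
    rw [dl_eq, ← lp.single_smul]; simp
  rw [this]
  exact Submodule.smul_mem _ _ (Submodule.subset_span ⟨g, rfl⟩)

lemma ext_of_dense {E F : Type*} [NormedAddCommGroup E] [NormedSpace ℂ E] [NormedAddCommGroup F]
    [NormedSpace ℂ F] {ι : Type*} {v : ι → E}
    (hv : ∀ ξ, ξ ∈ (Submodule.span ℂ (Set.range v)).topologicalClosure) {A B : E →L[ℂ] F}
    (h : ∀ i, A (v i) = B (v i)) : A = B :=
  ContinuousLinearMap.ext_on (s := Set.range v) (fun ξ => hv ξ) (by rintro _ ⟨i, rfl⟩; exact h i)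

omit [Group G] in
lemma coord (A : ltwo G →L[ℂ] ltwo G) (ξ : ltwo G) (g : G) : A ξ g = ∑' k, A (dl k) g * ξ k := by
  rw [← inner_dl, ← ContinuousLinearMap.adjoint_inner_left, lp.inner_eq_tsum]
  refine tsum_congr fun k => ?_
  rw [← inner_dl k (ContinuousLinearMap.adjoint A (dl g)), ContinuousLinearMap.adjoint_inner_right,
    ← inner_dl g (A (dl k)), ← inner_conj_symm (dl g)]
  simp [mul_comm]

lemma commutation {A B : ltwo G →L[ℂ] ltwo G} (hA : ∀ g, leftRegular g * A = A * leftRegular g)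
    (hB : ∀ g, rho g * B = B * rho g) : A * B = B * A := by
  have h1 : ∀ k g, A (dl k) g = A (dl 1) (k⁻¹ * g) := by
    intro k g
    rw [← lam_apply, ← mul_apply_eq_comp, hA, mul_apply_eq_comp, lam_dl, mul_one]
  have h2 : ∀ k g, B (dl k) g = B (dl 1) (g * k⁻¹) := by
    intro k g
    rw [← rho_apply, ← mul_apply_eq_comp, hB, mul_apply_eq_comp, rho_dl, one_mul, inv_inv]
  refine ext_of_dense dl_dense fun h => ?_
  ext g
  rw [mul_apply_eq_comp, mul_apply_eq_comp, coord A, coord B,
    ← Equiv.tsum_eq ((Equiv.inv G).trans ((Equiv.mulLeft g).trans (Equiv.mulRight h)))]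
  refine tsum_congr fun k => ?_
  rw [h1, h2, h2 k, h1 h, mul_comm]
  simp [mul_assoc]

variable (G) in
/-- The group von Neumann algebra as a star subalgebra. -/
noncomputable abbrev LG : StarSubalgebra ℂ (ltwo G →L[ℂ] ltwo G) := (groupVNA G).toStarSubalgebra

lemma mem_LG {x : ltwo G →L[ℂ] ltwo G} : x ∈ LG G ↔
    ∀ y : ltwo G →L[ℂ] ltwo G, (∀ g, leftRegular g * y = y * leftRegular g) → y * x = x * y := by
  have h : ∀ y : ltwo G →L[ℂ] ltwo G,
      y ∈ StarSubalgebra.centralizer ℂ (Set.range (leftRegular (G := G))) ↔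
        ∀ g, leftRegular g * y = y * leftRegular g := by
    intro y
    rw [StarSubalgebra.mem_centralizer_iff]
    refine ⟨fun h g => (h _ ⟨g, rfl⟩).1, ?_⟩
    rintro h _ ⟨g, rfl⟩
    exact ⟨h g, by rw [star_lam]; exact h _⟩
  change x ∈ StarSubalgebra.centralizer ℂ _ ↔ _
  rw [StarSubalgebra.mem_centralizer_iff]
  exact ⟨fun h' y hy => (h' y ((h y).2 hy)).1,
    fun h' y hy => ⟨h' y ((h y).1 hy), h' _ ((h _).1 (star_mem hy))⟩⟩

instance LG_closed : IsClosed (LG G : Set (ltwo G →L[ℂ] ltwo G)) := by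
  have h1 : IsClosed (groupVNA G : Set (ltwo G →L[ℂ] ltwo G)) := by
    rw [← (groupVNA G).centralizer_centralizer]; exact Set.isClosed_centralizer _
  exact h1

lemma rho_comm (x : LG G) (g : G) : rho g * x.1 = x.1 * rho g :=
  mem_LG.1 x.2 _ fun h => lam_rho h g

lemma star_coord (x : LG G) (g : G) : (star x.1) (dl 1) g = star (x.1 (dl 1) g⁻¹) := by
  have : x.1 (dl 1) g⁻¹ = x.1 (dl g) 1 := by
    have h : dl g = rho g⁻¹ (dl (1 : G)) := by rw [rho_dl, one_mul, inv_inv]
    rw [h, ← mul_apply_eq_comp, ← rho_comm, mul_apply_eq_comp, rho_apply, one_mul]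
  rw [this, ← inner_dl, ← inner_dl, ContinuousLinearMap.star_eq_adjoint,
    ContinuousLinearMap.adjoint_inner_right, ← inner_conj_symm]
  rfl

variable (G) in
/-- The canonical tracial GNS embedding. -/
noncomputable def gns : GNS (LG G) (ltwo G) where
  j := LinearMap.mkContinuous
    { toFun := fun x => x.1 (dl 1)
      map_add' := fun _ _ => rfl
      map_smul' := fun _ _ => rfl } 1 fun x => by
      have := x.1.le_opNorm (dl 1)
      rw [orthonormal_dl.1, mul_one] at this
      rw [one_mul]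
      exact this
  inner x y z := by
    change ⟪x.1 (dl 1), y.1 (z.1 (dl 1))⟫_ℂ = ⟪(star y.1) (x.1 (dl 1)), z.1 (dl 1)⟫_ℂ
    rw [ContinuousLinearMap.star_eq_adjoint, ContinuousLinearMap.adjoint_inner_left]
  le x := by
    have := x.1.le_opNorm (dl 1)
    rw [orthonormal_dl.1, mul_one] at this
    exact this
  one := orthonormal_dl.1 1
  nstar x := by
    change ‖(star x.1) (dl 1)‖ = ‖x.1 (dl 1)‖
    rw [lp.norm_eq_tsum_rpow (by norm_num), lp.norm_eq_tsum_rpow (by norm_num),
      ← Equiv.tsum_eq (Equiv.inv G)]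
    simp only [star_coord, Equiv.inv_apply, inv_inv, norm_star]

lemma gns_j (x : LG G) : (gns G).j x = x.1 (dl 1) := rfl

variable (G) in
/-- The left regular representation with values in the group von Neumann algebra. -/
noncomputable def lamH : G →* LG G where
  toFun g := ⟨leftRegular g, mem_LG.2 fun _ h => (h g).symm⟩
  map_one' := Subtype.ext lam_one
  map_mul' g h := Subtype.ext (lam_mul g h)

lemma good_lamH : Good (gns G) (lamH G) := by
  classical
  have hj : ∀ g, (gns G).j (lamH G g) = dl g := fun g => by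
    change leftRegular g (dl 1) = dl g
    rw [lam_dl, mul_one]
  refine ⟨fun g => Subtype.ext (star_lam g), fun g hg => ?_, fun ξ => ?_⟩
  · rw [GNS.τ_apply, hj]
    change ⟪dl 1, dl g⟫_ℂ = 0
    rw [inner_dl, dl_apply, if_neg (Ne.symm hg)]
  · simp only [hj]; exact dl_dense ξ

lemma strong_limit (v : ℕ → LG G) (hv : ∀ n, ‖v n‖ ≤ 1)
    (hc : CauchySeq fun n => (gns G).j (v n)) :
    ∃ U : ltwo G →L[ℂ] ltwo G, ∀ η, Filter.Tendsto (fun n => (v n).1 η) Filter.atTop (nhds (U η)) := by
  have key : ∀ η, CauchySeq fun n => (v n).1 η := by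
    have hsp : ∀ ζ ∈ Submodule.span ℂ (Set.range (dl : G → ltwo G)),
        CauchySeq fun n => (v n).1 ζ := by
      intro ζ hζ
      induction hζ using Submodule.span_induction with
      | mem _ h =>
        obtain ⟨g, rfl⟩ := h
        have : (fun n => (v n).1 (dl g)) = rho g⁻¹ ∘ fun n => (gns G).j (v n) := by
          funext n
          rw [Function.comp_apply, gns_j, ← mul_apply_eq_comp, rho_comm, mul_apply_eq_comp,
            rho_dl, one_mul, inv_inv]
        rw [this]
        exact (rho g⁻¹).uniformContinuous.comp_cauchySeq hc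
      | zero => simpa using cauchySeq_const (0 : ltwo G)
      | add x y _ _ hx hy => simpa [Pi.add_def] using hx.add hy
      | smul c x _ hx =>
        simpa [Function.comp_def] using (uniformContinuous_const_smul c).comp_cauchySeq hx
    intro η
    rw [Metric.cauchySeq_iff']
    intro ε hε
    obtain ⟨ζ, hζ, hd⟩ := Metric.mem_closure_iff.1 (dl_dense η) (ε / 3) (by positivity)
    obtain ⟨N, hN⟩ := Metric.cauchySeq_iff'.1 (hsp ζ hζ) (ε / 3) (by positivity)
    refine ⟨N, fun n hn => ?_⟩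
    have h1 : ∀ m, dist ((v m).1 η) ((v m).1 ζ) ≤ dist η ζ := fun m => by
      rw [dist_eq_norm, dist_eq_norm, ← map_sub]
      exact ((v m).1.le_opNorm _).trans (mul_le_of_le_one_left (norm_nonneg _) (hv m))
    have h2 := dist_triangle4 ((v n).1 η) ((v n).1 ζ) ((v N).1 ζ) ((v N).1 η)
    have h3 := h1 N
    rw [dist_comm] at h3
    linarith [h1 n, hN n hn]
  choose f hf using fun η => cauchySeq_tendsto_of_complete (key η)
  exact ⟨continuousLinearMapOfTendsto (fun n => (v n).1) (tendsto_pi_nhds.2 hf), hf⟩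

lemma gns_complete (ξ : ltwo G) (hξ : ξ ∈ closure {ξ | ∃ u ∈ unitary (LG G), (gns G).j u = ξ}) :
    ∃ u ∈ unitary (LG G), (gns G).j u = ξ := by
  obtain ⟨w, hw, hlim⟩ := mem_closure_iff_seq_limit.1 hξ
  choose u hu hj using hw
  have hc : CauchySeq fun n => (gns G).j (u n) := by
    simp only [hj]; exact hlim.cauchySeq
  have hc' : CauchySeq fun n => (gns G).j (star (u n)) := by
    rw [Metric.cauchySeq_iff] at hc ⊢
    intro ε hε
    obtain ⟨N, hN⟩ := hc ε hε
    refine ⟨N, fun m hm n hn => ?_⟩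
    have := hN m hm n hn
    rwa [dist_eq_norm, ← map_sub, ← (gns G).nstar, star_sub, map_sub, ← dist_eq_norm] at this
  obtain ⟨U, hU⟩ := strong_limit u (fun n => norm_le_one_of_star_mul (hu n).1) hc
  obtain ⟨U', hU'⟩ := strong_limit (fun n => star (u n))
    (fun n => norm_le_one_of_star_mul (by rw [star_star]; exact (hu n).2)) hc'
  have hs : star U = U' := by
    rw [ContinuousLinearMap.star_eq_adjoint]
    symm
    rw [ContinuousLinearMap.eq_adjoint_iff]
    intro x y
    refine tendsto_nhds_unique ((hU' x).inner (𝕜 := ℂ) (tendsto_const_nhds (x := y))) ?_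
    have := (tendsto_const_nhds (x := x)).inner (𝕜 := ℂ) (hU y)
    refine this.congr fun n => ?_
    change _ = ⟪(star (u n).1) x, y⟫_ℂ
    rw [ContinuousLinearMap.star_eq_adjoint, ContinuousLinearMap.adjoint_inner_left]
  have iso : ∀ (v : ℕ → LG G) (V : ltwo G →L[ℂ] ltwo G), (∀ n, star (v n) * v n = 1) →
      (∀ η, Filter.Tendsto (fun n => (v n).1 η) Filter.atTop (nhds (V η))) → star V * V = 1 := by
    intro v V h1 h2
    ext1 y
    refine ext_inner_left ℂ fun x => ?_
    rw [mul_apply_eq_comp, ContinuousLinearMap.star_eq_adjoint,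
      ContinuousLinearMap.adjoint_inner_right]
    refine tendsto_nhds_unique ((h2 x).inner (𝕜 := ℂ) (h2 y)) (tendsto_const_nhds.congr fun n => ?_)
    have h3 : star (v n).1 * (v n).1 = 1 := congrArg Subtype.val (h1 n)
    rw [← ContinuousLinearMap.adjoint_inner_right, ← ContinuousLinearMap.star_eq_adjoint,
      ← mul_apply_eq_comp, h3]
  have hM : U ∈ LG G := by
    refine mem_LG.2 fun y hy => ?_
    ext1 η
    refine tendsto_nhds_unique ((y.continuous.tendsto _).comp (hU η)) ((hU (y η)).congr fun n => ?_)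
    rw [← mul_apply_eq_comp, ← mem_LG.1 (u n).2 y hy]; rfl
  refine ⟨⟨U, hM⟩, ⟨Subtype.ext (iso u U (fun n => (hu n).1) hU), Subtype.ext ?_⟩, ?_⟩
  · have := iso _ U' (fun n => by rw [star_star]; exact (hu n).2) hU'
    rw [← hs, star_star] at this
    exact this
  · refine tendsto_nhds_unique (hU (dl 1)) (hlim.congr fun n => ?_)
    rw [← hj]; rfl

theorem iso_of_good {G' : Type*} [Group G'] [DecidableEq G] [DecidableEq G']
    {π : G' →* LG G} (hπ : Good (gns G) π) :
    ∃ Φ : LG G' ≃⋆ₐ[ℂ] LG G, ∀ x : LG G', groupTrace G (Φ x).1 = groupTrace G' x.1 := by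
  let bas : HilbertBasis G' ℂ (ltwo G) :=
    HilbertBasis.mk (hπ.2.1.orthonormal hπ.1) fun ξ _ => hπ.2.2 ξ
  let V : ltwo G' ≃ₗᵢ[ℂ] ltwo G := bas.repr.symm
  have hV : ∀ w, V (dl w) = (π w).1 (dl 1) := fun w => by
    rw [dl_eq]
    refine (bas.repr_symm_single w).trans ?_
    rw [HilbertBasis.coe_mk]; rfl
  let c := V.conjStarAlgEquiv
  have hsurj : Function.Surjective c := EquivLike.surjective c
  have hinj : Function.Injective c := EquivLike.injective c
  have hcV : ∀ y ξ, c y (V ξ) = V (y ξ) := fun y ξ => by simp [c]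
  have hlam : ∀ w, c (leftRegular w) = (π w).1 := by
    intro w
    refine ext_of_dense hπ.2.2 fun v => ?_
    rw [gns_j, ← hV, hcV, lam_dl, hV, hV, map_mul]; rfl
  have h1 : ∀ y ∈ LG G', c y ∈ LG G := by
    intro y hy
    refine mem_LG.2 fun z hz => ?_
    obtain ⟨z, rfl⟩ := hsurj z
    rw [← map_mul, ← map_mul, mem_LG.1 hy z fun w => hinj ?_]
    rw [map_mul, map_mul, hlam]
    exact (mem_LG.1 (π w).2 _ hz).symm
  have hR : ∀ (w : G') (m : LG G), c (rho w) ((gns G).j m) = (gns G).j (m * π w⁻¹) := by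
    intro w m
    have hsp : ∀ ζ ∈ Submodule.span ℂ (Set.range fun g => (gns G).j (π g)),
        ∃ n : LG G, (gns G).j n = ζ ∧ c (rho w) ζ = (gns G).j (n * π w⁻¹) := by
      intro ζ hζ
      induction hζ using Submodule.span_induction with
      | mem _ h =>
        obtain ⟨g, rfl⟩ := h
        refine ⟨π g, rfl, ?_⟩
        beta_reduce
        rw [← map_mul, gns_j, gns_j, ← hV, ← hV, hcV, rho_dl]
      | zero => exact ⟨0, by simp, by simp⟩
      | add x y _ _ hx hy =>
        obtain ⟨n1, a1, b1⟩ := hx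
        obtain ⟨n2, a2, b2⟩ := hy
        exact ⟨n1 + n2, by rw [map_add, a1, a2], by rw [map_add, b1, b2, add_mul, map_add]⟩
      | smul r x _ hx =>
        obtain ⟨n1, a1, b1⟩ := hx
        exact ⟨r • n1, by rw [map_smul, a1], by rw [map_smul, b1, smul_mul_assoc, map_smul]⟩
    rw [← sub_eq_zero, ← norm_le_zero_iff]
    refine le_of_forall_pos_le_add fun ε hε => ?_
    set K := ‖c (rho w)‖ with hK
    obtain ⟨ζ, hζ, hd⟩ := Metric.mem_closure_iff.1 (hπ.2.2 ((gns G).j m)) (ε / (K + 1))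
      (by positivity)
    obtain ⟨n, rfl, hn⟩ := hsp ζ hζ
    rw [dist_eq_norm, lt_div_iff₀ (by positivity)] at hd
    have e : c (rho w) ((gns G).j m) - (gns G).j (m * π w⁻¹) =
        c (rho w) ((gns G).j m - (gns G).j n) - (gns G).j ((m - n) * π w⁻¹) := by
      rw [map_sub, hn, sub_mul, map_sub]; abel
    rw [e]
    refine (norm_sub_le _ _).trans ?_
    rw [(gns G).norm_mul_unit (hπ.1.mul_star _), map_sub]
    have := (c (rho w)).le_opNorm ((gns G).j m - (gns G).j n)
    rw [map_sub] at this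
    rw [map_sub]
    linarith
  have h2 : ∀ x ∈ LG G, c.symm x ∈ LG G' := by
    intro x hx
    refine mem_LG.2 fun y hy => commutation hy fun w => hinj ?_
    rw [map_mul, map_mul, c.apply_symm_apply]
    refine ext_of_dense hπ.2.2 fun v => ?_
    have a1 : x ((gns G).j (π v)) = (gns G).j (⟨x, hx⟩ * π v) := rfl
    rw [mul_apply_eq_comp, mul_apply_eq_comp, a1, hR, hR, mul_assoc]
    rfl
  let Φ : LG G' ≃⋆ₐ[ℂ] LG G :=
    { toFun := fun y => ⟨c y.1, h1 _ y.2⟩
      invFun := fun x => ⟨c.symm x.1, h2 _ x.2⟩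
      left_inv := fun y => Subtype.ext (c.symm_apply_apply _)
      right_inv := fun x => Subtype.ext (c.apply_symm_apply _)
      map_mul' := fun x y => Subtype.ext (map_mul c _ _)
      map_add' := fun x y => Subtype.ext (map_add c _ _)
      map_star' := fun x => Subtype.ext (map_star c _)
      map_smul' := fun r x => Subtype.ext (map_smul c _ _) }
  refine ⟨Φ, fun x => ?_⟩
  have hV1 : V (dl 1) = dl 1 := by rw [hV, map_one]; rfl
  change ⟪_, c x.1 _⟫_ℂ = ⟪_, x.1 _⟫_ℂ
  rw [← dl_eq, ← dl_eq, ← hV1, hcV, V.inner_map_map]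

theorem main (n : ℕ) (hn : 2 ≤ n) :
    ∃ Φ : LG (FreeGroup (Fin n)) ≃⋆ₐ[ℂ] LG (FreeGroup (Fin (n + 1))),
      ∀ x : LG (FreeGroup (Fin n)),
        groupTrace (FreeGroup (Fin (n + 1))) (Φ x).1 = groupTrace (FreeGroup (Fin n)) x.1 := by
  obtain ⟨π, hπ⟩ := baire (β := Fin n) (a := ⟨0, by omega⟩) (b := ⟨1, by omega⟩) (by simp)
    (gns (FreeGroup (Fin (n + 1)))) gns_complete
    (good_lamH.comp_equiv (FreeGroup.freeGroupCongr finSuccEquivLast.symm))
  exact iso_of_good hπ

end Crest.Agent.H0183
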